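import Vale.Agent.P157.Full.CutLimit.PairPow
import Vale.Agent.P157.Parisi.Site.ExpMean

/-!
The characteristic function of the cavity field weighted by a function of the overlaps.
-/

noncomputable section

open MeasureTheory ProbabilityTheory Filter Topology Finset
open scoped BigOperators NNReal

namespace Vale.Agent.P157.Parisi.Full.CutLimit

open Site
open Vale.Agent.P168 (Shape shapeProb)
open Vale.Agent.P168.Cascade (Exps IsTree)

variable {N L n : ℕ} {f : ℝ → ℝ} {A α C : ℝ} {F : (Fin n → Fin n → ℝ) → ℝ} {Nj : ℕ → ℕ}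
  {xj : ∀ j, Fin (Nj j) → ℝ} {μj : ℕ → ℝ} {ξ : ℕ → Path}

/-- The replica mean of the characteristic function of the cavity field, weighted. -/
def expMeanF (f : ℝ → ℝ) (s : ℝ) (x : Fin L → ℝ) (N : ℕ) (μ : ℝ)
    (F : (Fin n → Fin n → ℝ) → ℝ) (a : Fin n → ℝ) : ℝ :=
  ∫ d, rep n (totalH f s x d) (fun σ : Fin n → Cube N => F (overlaps σ) *
    Real.exp (-((∑ b ∈ Finset.range d.1,
      ∑ p, quadC a p * (quadO f p).eval (fld (d.2.1 b) σ)) / N) / 2)) ∂disLaw N L μ

/-- Its value on the tree. -/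
def expTreeF (α : ℝ) (f : ℝ → ℝ) (ξ : Path) (F : (Fin n → Fin n → ℝ) → ℝ) (a : Fin n → ℝ) : ℝ :=
  ∑ v : Shape ξ.r n, shapeProb ξ.m n v * (F (ξ.gram v) *
    Real.exp (-(deltaOf α f ξ * (∑ l, a l ^ 2) + treeVar (rhoOf α f ξ) v a) / 2))

lemma integrable_powRepF (hf : Smooth f A) (hF : ∀ O, |F O| ≤ 1) (s : ℝ) (x : Fin L → ℝ) (μ : ℝ) (a : Fin n → ℝ) (i : ℕ) :
    Integrable (fun d : Dis N L => rep n (totalH f s x d) (fun σ : Fin n → Cube N =>
      F (overlaps σ) * ((∑ b ∈ Finset.range d.1, ∑ p, quadC a p * (quadO f p).eval (fld (d.2.1 b) σ)) / (N : ℝ)) ^ i))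
      (disLaw N L μ) := by
  refine (((integrable_count_pow μ.toNNReal i).const_mul ((quadB A a / N) ^ i)).comp_fst _).mono'
    (measurable_rep (measurable_totalH hf.continuous s x) fun σ =>
      ((measurable_quadSum hf a σ).pow_const i).const_mul _).aestronglyMeasurable (ae_of_all _ fun d => ?_)
  rw [Real.norm_eq_abs]
  refine abs_rep_le _ fun σ => (abs_mul_le_right (hF _)).trans ?_
  rw [abs_pow, ← mul_pow]
  refine pow_le_pow_left₀ (abs_nonneg _) ?_ i
  rw [abs_div, Nat.abs_cast, div_mul_eq_mul_div]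
  refine div_le_div_of_nonneg_right ?_ (Nat.cast_nonneg _)
  rw [abs_of_nonneg (Finset.sum_nonneg fun b _ => (quad_mem hf a _).1)]
  exact (Finset.sum_le_sum fun b _ => (quad_mem hf a _).2).trans_eq
    (by rw [Finset.sum_const, Finset.card_range, nsmul_eq_mul, mul_comm])

lemma abs_expMeanF_sub (hf : Smooth f A) (hF : ∀ O, |F O| ≤ 1) (s : ℝ) (x : Fin L → ℝ) (μ : ℝ) (a : Fin n → ℝ) (K : ℕ) :
    |expMeanF f s x N μ F a - ∑ i ∈ Finset.range K, (-(1 / 2)) ^ i / ((i.factorial : ℕ) : ℝ) *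
      powMeanF f s x N μ i F (fun v => ∑ p, quadC a p * (quadO f p).eval v)| ≤
      (1 / 2) ^ K / ((K.factorial : ℕ) : ℝ) *
        powMean f s x N μ K (fun v => ∑ p, quadC a p * (quadO f p).eval v) := by
  set Q : Dis N L → (Fin n → Cube N) → ℝ := fun d σ =>
    (∑ b ∈ Finset.range d.1, ∑ p, quadC a p * (quadO f p).eval (fld (d.2.1 b) σ)) / (N : ℝ)
  have hQ : ∀ d σ, 0 ≤ Q d σ := fun d σ =>
    div_nonneg (Finset.sum_nonneg fun b _ => (quad_mem hf a _).1) (Nat.cast_nonneg _)
  have hiE : Integrable (fun d => rep n (totalH f s x d) fun σ => F (overlaps σ) * Real.exp (-Q d σ / 2))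
      (disLaw N L μ) :=
    integrable_of_abs_le (measurable_rep (measurable_totalH hf.continuous s x) fun σ =>
      ((measurable_quadSum hf a σ).neg.div_const 2).exp.const_mul _) (K := 1) fun d =>
        abs_rep_le _ fun σ => by
        refine (abs_mul_le_right (hF _)).trans ?_
        rw [abs_of_pos (Real.exp_pos _)]
        exact Real.exp_le_one_iff.2 (by linarith [hQ d σ])
  have hi := fun i => integrable_powRep (N := N) hf s x μ a i
  have hiF := fun i => integrable_powRepF (N := N) hf hF s x μ a i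
  have e : ∀ i, (-(1 / 2)) ^ i / ((i.factorial : ℕ) : ℝ) *
      powMeanF f s x N μ i F (fun v => ∑ p, quadC a p * (quadO f p).eval v) =
      ∫ d, (-(1 / 2)) ^ i / ((i.factorial : ℕ) : ℝ) *
        rep n (totalH f s x d) (fun σ => F (overlaps σ) * Q d σ ^ i) ∂disLaw N L μ := fun i => by
    rw [integral_const_mul]; rfl
  rw [Finset.sum_congr rfl fun i _ => e i, ← integral_finsetSum _ fun i _ => (hiF i).const_mul _]
  unfold expMeanF
  rw [← integral_sub hiE (integrable_finsetSum _ fun i _ => (hiF i).const_mul _), powMean,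
    ← integral_const_mul, ← Real.norm_eq_abs]
  refine norm_integral_le_of_norm_le ((hi K).const_mul _) (ae_of_all _ fun d => ?_)
  rw [Real.norm_eq_abs]
  simp only [← rep_const_mul, ← rep_sum, ← rep_sub]
  refine (abs_rep_le_rep _ _).trans (rep_mono _ fun σ => ?_)
  have h := abs_exp_neg_sub_le K (div_nonneg (hQ d σ) two_pos.le)
  have e1 : expPart K (Q d σ / 2) =
      ∑ i ∈ Finset.range K, (-(1 / 2)) ^ i / ((i.factorial : ℕ) : ℝ) * Q d σ ^ i :=
    Finset.sum_congr rfl fun i _ => by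
      rw [show -(Q d σ / 2) = (-(1 / 2 : ℝ)) * Q d σ by ring, mul_pow]
      ring
  have e2 : (Q d σ / 2) ^ K / ((K.factorial : ℕ) : ℝ) =
      (1 / 2) ^ K / ((K.factorial : ℕ) : ℝ) * Q d σ ^ K := by
    rw [show Q d σ / 2 = (1 / 2 : ℝ) * Q d σ by ring, mul_pow]
    ring
  rw [e1, e2, ← neg_div] at h
  refine le_trans (le_of_eq ?_) ((abs_mul_le_right (hF (overlaps σ))).trans h)
  rw [mul_sub, Finset.mul_sum]
  congr 2
  exact Finset.sum_congr rfl fun i _ => by ring

/-- The characteristic function of the cavity field converges to its value on the tree. -/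
theorem tendsto_expMeanF (hcont : ContStmt) (hslope : SlopeStmt) (h : Setup α A C f Nj xj μj ξ)
    (hFc : Continuous F) (hF : ∀ O, |F O| ≤ 1) (a : Fin n → ℝ) :
    Tendsto (fun j => expMeanF f (scale (Nj j)) (xj j) (Nj j) (μj j) F a -
      expTreeF α f (ξ j) F a)
      atTop (𝓝 0) := by
  set G : (Fin n → ℝ) → ℝ := fun v => ∑ p, quadC a p * (quadO f p).eval v
  set pm : ℕ → ℕ → ℝ := fun i j => powMean f (scale (Nj j)) (xj j) (Nj j) (μj j) i G
  set u : (j : ℕ) → Shape (ξ j).r n → ℝ := fun j v =>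
    α * ∑ p, quadC a p * (quadO f p).val (ξ j) f v
  set tm : ℕ → ℕ → ℝ := fun i j => ∑ v, shapeProb (ξ j).m n v * u j v ^ i
  have ho : ∀ p : Fin n × Fin n, (quadO f p).Good := fun p =>
    ⟨h.smooth.d1.continuous, h.smooth.d1.continuous, A, fun z => ⟨h.smooth.b1 z, h.smooth.b1 z⟩⟩
  have hlim : ∀ i, Tendsto (fun j => pm i j - tm i j) atTop (𝓝 0) := fun i =>
    tendsto_powMean hcont h.smooth h.large h.pos h.mu_nonneg h.mu_near h.approx
      (quadC a) (quadO f) ho i
  set pf : ℕ → ℕ → ℝ := fun i j => powMeanF f (scale (Nj j)) (xj j) (Nj j) (μj j) i F G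
  set tf : ℕ → ℕ → ℝ := fun i j =>
    ∑ v, shapeProb (ξ j).m n v * (F ((ξ j).gram v) * u j v ^ i)
  have hlimF : ∀ i, Tendsto (fun j => pf i j - tf i j) atTop (𝓝 0) := fun i =>
    tendsto_powMeanF hcont h.smooth h.large h.pos h.mu_nonneg h.mu_near h.approx
      (quadC a) (quadO f) ho hFc hF i
  set R : ℝ := α * quadB A a + 1
  have hbd : ∀ K, ∀ᶠ j in atTop, pm K j ≤ R ^ K + 1 ∧ tm K j ≤ R ^ K + 2 := by
    intro K
    have hm := (tendsto_scaled_moment h.large h.mu_nonneg h.tendsto_ratio K).const_mul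
      (quadB A a ^ K)
    have hle : quadB A a ^ K * α ^ K < R ^ K + 1 := by
      rw [← mul_pow, mul_comm (quadB A a)]
      have hq : 0 ≤ α * quadB A a := mul_nonneg h.alpha.le (sq_nonneg _)
      have := pow_le_pow_left₀ hq (show α * quadB A a ≤ R by simp [R]) K
      linarith
    filter_upwards [hm.eventually (gt_mem_nhds hle), Metric.tendsto_nhds.1 (hlim K) 1 one_pos]
      with j hj hd
    have hp : pm K j ≤ R ^ K + 1 := by
      refine le_trans ?_ hj.le
      rw [← mul_div_assoc, ← integral_const_mul, div_eq_inv_mul, ← integral_const_mul]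
      set Bd : ℕ → ℝ := fun m => ((Nj j : ℝ) ^ K)⁻¹ * (quadB A a ^ K * (m : ℝ) ^ K) with hBd
      have hiB : Integrable Bd (poissonMeasure (μj j).toNNReal) :=
        ((integrable_count_pow _ K).const_mul _).const_mul _
      refine le_trans (integral_mono (integrable_powRep h.smooth _ _ _ a K)
        (hiB.comp_fst _) fun d => ?_) (le_of_eq ?_)
      · refine (rep_mono _ fun σ => ?_).trans (rep_const _ _).le
        simp only [hBd]
        rw [div_pow, div_eq_inv_mul, ← mul_pow (quadB A a)]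
        refine mul_le_mul_of_nonneg_left (pow_le_pow_left₀
          (Finset.sum_nonneg fun b _ => (quad_mem h.smooth a _).1) ?_ K) (by positivity)
        exact (Finset.sum_le_sum fun b _ => (quad_mem h.smooth a _).2).trans_eq
          (by rw [Finset.sum_const, Finset.card_range, nsmul_eq_mul, mul_comm])
      · rw [disLaw, integral_fun_fst, probReal_univ, one_smul]
    rw [Real.dist_eq, sub_zero] at hd
    exact ⟨hp, by linarith [(abs_lt.1 hd).1]⟩
  rw [Metric.tendsto_nhds]
  intro ε hε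
  have hR : 0 ≤ R := by
    have := mul_nonneg h.alpha.le (sq_nonneg ((∑ l, |a l|) * A))
    simp only [R, quadB]
    linarith
  obtain ⟨K, hK⟩ := ((((FloorSemiring.tendsto_pow_div_factorial_atTop (R / 2)).const_mul 2).add
    ((FloorSemiring.tendsto_pow_div_factorial_atTop (1 / 2 : ℝ)).const_mul 3)).eventually
      (gt_mem_nhds (show 2 * (0 : ℝ) + 3 * 0 < ε / 2 by linarith))).exists
  have hsum := tendsto_finsetSum (Finset.range K) fun i _ =>
    (hlimF i).const_mul ((-(1 / 2 : ℝ)) ^ i / ((i.factorial : ℕ) : ℝ))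
  simp only [mul_zero, Finset.sum_const_zero] at hsum
  filter_upwards [hbd K, Metric.tendsto_nhds.1 hsum (ε / 2) (by linarith)] with j ⟨hp, ht⟩ hs
  rw [Real.dist_eq, sub_zero] at hs ⊢
  have h1 := abs_expMeanF_sub h.smooth hF (scale (Nj j)) (xj j) (μj j) a K (N := Nj j)
  obtain ⟨hρ, hρ0, hδ, -⟩ := slope_facts hslope h.smooth h.alpha.le (ξ j)
  have hexps : Exps (ξ j).m := ⟨(ξ j).isPath.pos, (ξ j).isPath.lt_one, (ξ j).isPath.strictMono⟩
  have h2 : |expTreeF α f (ξ j) F a - ∑ i ∈ Finset.range K,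
      (-(1 / 2)) ^ i / ((i.factorial : ℕ) : ℝ) * tf i j| ≤
      (1 / 2) ^ K / ((K.factorial : ℕ) : ℝ) * tm K j := by
    have e : ∑ i ∈ Finset.range K, (-(1 / 2)) ^ i / ((i.factorial : ℕ) : ℝ) * tf i j =
        ∑ v, shapeProb (ξ j).m n v * (F ((ξ j).gram v) * expPart K (u j v / 2)) := by
      simp only [tf, expPart, Finset.mul_sum]
      rw [Finset.sum_comm]
      refine Finset.sum_congr rfl fun v _ => Finset.sum_congr rfl fun i _ => ?_
      rw [show -(u j v / 2) = (-(1 / 2 : ℝ)) * u j v by ring, mul_pow]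
      ring
    rw [e, expTreeF, ← Finset.sum_sub_distrib]
    refine ((Finset.abs_sum_le_sum_abs _ _).trans (Finset.sum_le_sum (g := fun v =>
      (1 / 2 : ℝ) ^ K / ((K.factorial : ℕ) : ℝ) * (shapeProb (ξ j).m n v * u j v ^ K))
      fun v _ => ?_)).trans_eq (Finset.mul_sum _ _ _).symm
    rcases eq_or_ne (shapeProb (ξ j).m n v) 0 with h0 | h0
    · simp [h0]
    have hv := Vale.Agent.P168.Cascade.isTree_of_prob h0
    have eu : deltaOf α f (ξ j) * (∑ l, a l ^ 2) + treeVar (rhoOf α f (ξ j)) v a = u j v :=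
      (quad_val hslope h.smooth α (ξ j) hv a).symm
    have hu : 0 ≤ u j v := by
      rw [← eu]
      exact add_nonneg (mul_nonneg hδ (Finset.sum_nonneg fun l _ => sq_nonneg _))
        (treeVar_nonneg hv hρ hρ0 a)
    rw [← mul_sub, ← mul_sub, eu, abs_mul, abs_of_nonneg (shapeProb_nonneg hexps v)]
    refine (mul_le_mul_of_nonneg_left (abs_mul_le_right (hF _))
      (shapeProb_nonneg hexps v)).trans ?_
    rw [
      show -u j v / 2 = -(u j v / 2) by ring]
    refine (mul_le_mul_of_nonneg_left (abs_exp_neg_sub_le K (div_nonneg hu two_pos.le))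
      (shapeProb_nonneg hexps v)).trans_eq ?_
    simp only [div_pow, one_pow]
    ring
  have hfac : 0 ≤ (1 / 2 : ℝ) ^ K / ((K.factorial : ℕ) : ℝ) := by positivity
  have eK : (1 / 2 : ℝ) ^ K / ((K.factorial : ℕ) : ℝ) * R ^ K =
      (R / 2) ^ K / ((K.factorial : ℕ) : ℝ) := by
    simp only [div_pow, one_pow]
    ring
  have h3 := mul_le_mul_of_nonneg_left hp hfac
  have h4 := mul_le_mul_of_nonneg_left ht hfac
  simp only [mul_sub, Finset.sum_sub_distrib] at hs
  rw [mul_add] at h3 h4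
  rw [abs_le] at h1 h2
  rw [abs_lt] at hs ⊢
  change (1 / 2 : ℝ) ^ K / ((K.factorial : ℕ) : ℝ) * powMean f (scale (Nj j)) (xj j) (Nj j) (μj j) K G ≤ _ at h3
  simp only [pf] at hs
  constructor <;> linarith [h1.1, h1.2, h2.1, h2.2]

end Vale.Agent.P157.Parisi.Full.CutLimit
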