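import Vale.Agent.P157.Full.CutLimit.ExpF
import Vale.Agent.P157.Parisi.Site.LowerBound

/-!
Mixed moments of trigonometric sums of the cavity field, weighted by a function of the overlaps.
-/

noncomputable section

open MeasureTheory ProbabilityTheory Filter Topology Finset
open scoped BigOperators NNReal

namespace Vale.Agent.P157.Parisi.Full.CutLimit

open Site
open Vale.Agent.P168 (Shape shapeProb shapeMarks)
open Vale.Agent.P168.Cascade (Exps IsTree tableLaw)

variable {N L n : ℕ} {f : ℝ → ℝ} {A α C : ℝ} {F : (Fin n → Fin n → ℝ) → ℝ} {Nj : ℕ → ℕ}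
  {xj : ∀ j, Fin (Nj j) → ℝ} {μj : ℕ → ℝ} {ξ : ℕ → Path}
variable {ι : Type} [Fintype ι] [DecidableEq ι]

/-- A sum of cosines with phases. -/
def psum (c t θ : ι → ℝ) (y : ℝ) : ℝ := ∑ i, c i * Real.cos (t i * y + θ i)

/-- Its coefficients after a Gaussian shift of variance `δ`. -/
def pco (δ : ℝ) (c t : ι → ℝ) (i : ι) : ℝ := c i * Real.exp (-(δ * t i ^ 2) / 2)

omit [DecidableEq ι] in
lemma continuous_psum (c t θ : ι → ℝ) : Continuous (psum c t θ) := by
  unfold psum; fun_prop

omit [DecidableEq ι] in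
lemma abs_psum_le (c t θ : ι → ℝ) (y : ℝ) : |psum c t θ y| ≤ ∑ i, |c i| :=
  (Finset.abs_sum_le_sum_abs _ _).trans (Finset.sum_le_sum fun i _ => by
    rw [abs_mul]; exact mul_le_of_le_one_right (abs_nonneg _) (Real.abs_cos_le_one _))

omit [DecidableEq ι] in
lemma psum_spread (c t θ : ι → ℝ) {δ : ℝ} (hδ : 0 ≤ δ) (x : ℝ) :
    spread δ (psum c t θ) x = psum (pco δ c t) t θ x := by
  have hi : ∀ i, Integrable
      (fun g => c i * Real.cos ((t i * x + θ i) + t i * Real.sqrt δ * g)) (gaussianReal 0 1) :=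
    fun i => (Integrable.of_bound (by fun_prop : Continuous fun g : ℝ =>
      Real.cos ((t i * x + θ i) + t i * Real.sqrt δ * g)).aestronglyMeasurable 1
      (ae_of_all _ fun g => Real.abs_cos_le_one _)).const_mul _
  have e : (fun g => psum c t θ (x + Real.sqrt δ * g)) =
      fun g => ∑ i, c i * Real.cos ((t i * x + θ i) + t i * Real.sqrt δ * g) := by
    funext g
    refine Finset.sum_congr rfl fun i _ => ?_
    ring_nf
  rw [spread, e, integral_finsetSum _ fun i _ => hi i, psum]
  refine Finset.sum_congr rfl fun i _ => ?_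
  rw [integral_const_mul, integral_cos_gauss, mul_pow, Real.sq_sqrt hδ, pco]
  ring_nf

/-- The phase of a choice of terms and signs. -/
def phase (θ : ι → ℝ) (i : Fin n → ι) (s : Fin n → Bool) : ℝ := ∑ l, sgn (s l) * θ (i l)

/-- The coefficient of a choice of terms. -/
def chCo (c : Fin n → ι → ℝ) (i : Fin n → ι) : ℝ := (∏ l, c l (i l)) / 2 ^ n

/-- The frequencies of a choice of terms and signs. -/
def freq (t : ι → ℝ) (i : Fin n → ι) (s : Fin n → Bool) (l : Fin n) : ℝ := sgn (s l) * t (i l)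

lemma prod_psum_eq (c : Fin n → ι → ℝ) (t θ : ι → ℝ) (y : Fin n → ℝ) :
    ∏ l, psum (c l) t θ (y l) = ∑ i : Fin n → ι, chCo c i *
      ∑ s : Fin n → Bool, Real.cos (phase θ i s + ∑ l, freq t i s l * y l) := by
  simp only [psum, Fintype.prod_sum, Finset.prod_mul_distrib, prod_cos_eq, chCo, phase, freq]
  refine Finset.sum_congr rfl fun i _ => ?_
  rw [← mul_div_assoc, div_mul_eq_mul_div]
  congr 2
  refine Finset.sum_congr rfl fun s _ => ?_
  rw [← Finset.sum_add_distrib]
  congr 1
  exact Finset.sum_congr rfl fun l _ => by ring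

lemma integral_cos_infinite' (θ : ℝ) (m : ℕ) (u : ℕ → ℝ) :
    ∫ z, Real.cos (θ + ∑ a ∈ Finset.range m, z a * u a) ∂zLaw =
      Real.cos θ * Real.exp (-(∑ a ∈ Finset.range m, u a ^ 2) / 2) := by
  have hmp := Vale.Agent.P168.Limit.Cavity.measurePreserving_marginal (gaussianReal 0 1)
    (fun i : Fin m => (i : ℕ)) Fin.val_injective
  have hd : Measurable fun g : Fin m → ℝ => Real.cos (θ + dot g fun i => u i) :=
    Real.continuous_cos.measurable.comp
      ((measurable_dot.comp (measurable_id.prodMk measurable_const)).const_add θ)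
  have e := integral_cos_shift θ (fun i : Fin m => u i)
  rw [gam, ← hmp.map_eq, integral_map hmp.measurable.aemeasurable hd.aestronglyMeasurable] at e
  simpa only [dot, Finset.sum_range] using e

lemma integrable_cos_field' (θ : ℝ) (m : ℕ) (u : ℕ → ℝ) :
    Integrable (fun z : ℕ → ℝ => Real.cos (θ + ∑ b ∈ Finset.range m, z b * u b)) zLaw :=
  Integrable.of_bound (Real.continuous_cos.measurable.comp ((Finset.measurable_sum _ fun b _ =>
    (measurable_pi_apply b).mul_const _).const_add θ)).aestronglyMeasurable 1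
    (ae_of_all _ fun z => Real.abs_cos_le_one _)

/-- A mixed moment of the cavity field, weighted. -/
def mixMom (f : ℝ → ℝ) (s : ℝ) (x : Fin L → ℝ) (N : ℕ) (μ : ℝ)
    (F : (Fin n → Fin n → ℝ) → ℝ) (ψl : Fin n → ℝ → ℝ) : ℝ :=
  ∫ d, ∫ z, rep n (totalH f s x d)
    (fun σ : Fin n → Cube N => F (overlaps σ) * ∏ l, ψl l (cavY f z d (σ l))) ∂zLaw
    ∂disLaw N L μ

lemma integral_rep_zLaw (E : Cube N → ℝ) {Φ : (ℕ → ℝ) → (Fin n → Cube N) → ℝ}
    (h : ∀ σ, Integrable (fun z => Φ z σ) zLaw) :
    ∫ z, rep n E (Φ z) ∂zLaw = rep n E fun σ => ∫ z, Φ z σ ∂zLaw := by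
  simp only [rep]
  rw [integral_finsetSum _ fun σ _ => (h σ).const_mul _]
  exact Finset.sum_congr rfl fun σ _ => integral_const_mul _ _

lemma mixMom_eq (hf : Smooth f A) (hF : ∀ O, |F O| ≤ 1) (s : ℝ) (x : Fin L → ℝ) (μ : ℝ)
    (c : Fin n → ι → ℝ) (t θ : ι → ℝ) :
    mixMom f s x N μ F (fun l => psum (c l) t θ) = ∑ i : Fin n → ι, chCo c i *
      ∑ sg : Fin n → Bool, Real.cos (phase θ i sg) * expMeanF f s x N μ F (freq t i sg) := by
  have hlin : ∀ (d : Dis N L) (σ : Fin n → Cube N) (a : Fin n → ℝ) (z : ℕ → ℝ),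
      ∑ l, a l * cavY f z d (σ l) = ∑ b ∈ Finset.range d.1,
        z b * ((∑ l, a l * deriv f (fld (d.2.1 b) σ l)) / Real.sqrt N) := fun d σ a z => by
    simp only [cavY, fld, Finset.sum_div, mul_div_assoc, Finset.mul_sum]
    rw [Finset.sum_comm]
    refine Finset.sum_congr rfl fun b _ => Finset.sum_congr rfl fun l _ => by ring
  have hq : ∀ (d : Dis N L) (σ : Fin n → Cube N) (a : Fin n → ℝ),
      ∑ b ∈ Finset.range d.1, ((∑ l, a l * deriv f (fld (d.2.1 b) σ l)) / Real.sqrt N) ^ 2 =
        (∑ b ∈ Finset.range d.1, ∑ p, quadC a p * (quadO f p).eval (fld (d.2.1 b) σ)) / N :=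
    fun d σ a => by
      simp only [quad_eq, div_pow, Real.sq_sqrt (Nat.cast_nonneg N)]
      exact (Finset.sum_div _ _ _).symm
  have hin : ∀ d : Dis N L, ∫ z, rep n (totalH f s x d)
      (fun σ : Fin n → Cube N => F (overlaps σ) * ∏ l, psum (c l) t θ (cavY f z d (σ l))) ∂zLaw =
      ∑ i : Fin n → ι, chCo c i * ∑ sg : Fin n → Bool, Real.cos (phase θ i sg) *
        rep n (totalH f s x d) (fun σ => F (overlaps σ) *
          Real.exp (-((∑ b ∈ Finset.range d.1,
            ∑ p, quadC (freq t i sg) p * (quadO f p).eval (fld (d.2.1 b) σ)) / N) / 2)) := by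
    intro d
    simp only [prod_psum_eq, hlin, Finset.mul_sum]
    rw [integral_rep_zLaw _ fun σ => integrable_finsetSum _ fun i _ =>
      integrable_finsetSum _ fun sg _ =>
        ((integrable_cos_field' _ _ _).const_mul _).const_mul _]
    simp only [← rep_const_mul, ← rep_sum]
    congr 1
    funext σ
    rw [integral_finsetSum _ fun i _ =>
      integrable_finsetSum _ fun sg _ => ((integrable_cos_field' _ _ _).const_mul _).const_mul _]
    refine Finset.sum_congr rfl fun i _ => ?_
    rw [integral_finsetSum _ fun sg _ =>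
      ((integrable_cos_field' _ _ _).const_mul _).const_mul _]
    refine Finset.sum_congr rfl fun sg _ => ?_
    rw [integral_const_mul, integral_const_mul, integral_cos_infinite', hq, neg_div]
    ring
  have hi : ∀ a : Fin n → ℝ, Integrable (fun d : Dis N L => rep n (totalH f s x d)
      (fun σ : Fin n → Cube N => F (overlaps σ) * Real.exp (-((∑ b ∈ Finset.range d.1,
        ∑ p, quadC a p * (quadO f p).eval (fld (d.2.1 b) σ)) / N) / 2))) (disLaw N L μ) := fun a =>
    integrable_of_abs_le (measurable_rep (measurable_totalH hf.continuous s x) fun σ =>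
      ((measurable_quadSum hf a σ).neg.div_const 2).exp.const_mul _) (K := 1) fun d =>
        abs_rep_le _ fun σ => by
          refine (abs_mul_le_right (hF _)).trans ?_
          rw [abs_of_pos (Real.exp_pos _)]
          exact Real.exp_le_one_iff.2 (by
            have : (0 : ℝ) ≤ (∑ b ∈ Finset.range d.1,
                ∑ p, quadC a p * (quadO f p).eval (fld (d.2.1 b) σ)) / N :=
              div_nonneg (Finset.sum_nonneg fun b _ => (quad_mem hf a _).1) (Nat.cast_nonneg _)
            linarith)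
  unfold mixMom
  simp only [hin]
  rw [integral_finsetSum _ fun i _ =>
    (integrable_finsetSum _ fun sg _ => (hi _).const_mul _).const_mul _]
  refine Finset.sum_congr rfl fun i _ => ?_
  rw [integral_const_mul, integral_finsetSum _ fun sg _ => (hi _).const_mul _]
  congr 1
  exact Finset.sum_congr rfl fun sg _ => by rw [integral_const_mul]; rfl

/-! ### The tree side -/

/-- A mixed moment of the field of a cascade, weighted. -/
def mixTree (ξ : Path) (ρ : Fin (ξ.r + 1) → ℝ) (F : (Fin n → Fin n → ℝ) → ℝ)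
    (ψl : Fin n → ℝ → ℝ) : ℝ :=
  ∫ g₀, ∑ v : Shape ξ.r n, shapeProb ξ.m n v * (F (ξ.gram v) *
    ∫ ω, ∏ l, ψl l (pathField ρ g₀ (shapeMarks v ω l)) ∂tableLaw (gaussianReal 0 1) ξ.r n)
    ∂gaussianReal 0 1

variable {r : ℕ} {v : Shape r n} {ρ : Fin (r + 1) → ℝ}

lemma integral_cos_field_phase (hv : IsTree v) (hρ : Monotone ρ) (h0 : 0 ≤ ρ 0) (θ : ℝ)
    (a : Fin n → ℝ) :
    ∫ g₀, ∫ ω : Fin r → Fin n → ℝ, Real.cos (θ + ∑ l, a l * pathField ρ g₀ (shapeMarks v ω l))
        ∂tableLaw (gaussianReal 0 1) r n ∂gaussianReal 0 1 =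
      Real.cos θ * Real.exp (-treeVar ρ v a / 2) := by
  have h1 : ∀ g₀, ∫ ω : Fin r → Fin n → ℝ,
      Real.cos (θ + ∑ l, a l * pathField ρ g₀ (shapeMarks v ω l))
        ∂tableLaw (gaussianReal 0 1) r n =
      Real.cos (θ + (Real.sqrt (ρ 0) * ∑ l, a l) * g₀) *
        Real.exp (-(∑ p, ∑ x, coefMark ρ v a p x ^ 2) / 2) := by
    intro g₀
    simp only [sum_field_eq, ← add_assoc]
    exact integral_cos_pi_pi _ _
  simp only [h1, integral_mul_const]
  rw [integral_cos_gauss, treeVar_eq hv hρ h0 a, mul_assoc, ← Real.exp_add]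
  congr 2
  ring

lemma measurable_fieldProd (ψl : Fin n → ℝ → ℝ) (hψ : ∀ l, Continuous (ψl l))
    (v : Shape r n) : Measurable fun p : ℝ × (Fin r → Fin n → ℝ) =>
      ∏ l, ψl l (pathField ρ p.1 (shapeMarks v p.2 l)) :=
  Finset.measurable_prod _ fun l _ =>
    ((hψ l).comp (continuous_pathField ρ)).measurable.comp (measurable_fst.prodMk
      ((Vale.Agent.P168.Cascade.measurable_shapeMarks v l).comp measurable_snd))

lemma integrable_fieldProd {ψl : Fin n → ℝ → ℝ} (hψ : ∀ l, Continuous (ψl l)) {B : Fin n → ℝ}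
    (hB : ∀ l y, |ψl l y| ≤ B l) (v : Shape r n) :
    Integrable (fun g₀ => ∫ ω, ∏ l, ψl l (pathField ρ g₀ (shapeMarks v ω l))
      ∂tableLaw (gaussianReal 0 1) r n) (gaussianReal 0 1) :=
  integrable_of_abs_le ((measurable_fieldProd ψl hψ v).stronglyMeasurable.integral_prod_right'
    (ν := tableLaw (gaussianReal 0 1) r n)).measurable (K := ∏ l, B l) fun g =>
      Site.abs_integral_le fun ω => by
        rw [Finset.abs_prod]
        exact Finset.prod_le_prod (fun l _ => abs_nonneg _) fun l _ => hB l _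

lemma integral_prod_field (hv : IsTree v) (hρ : Monotone ρ) (h0 : 0 ≤ ρ 0)
    (c : Fin n → ι → ℝ) (t θ : ι → ℝ) (δ : ℝ) :
    ∫ g₀, ∫ ω, ∏ l, psum (pco δ (c l) t) t θ (pathField ρ g₀ (shapeMarks v ω l))
        ∂tableLaw (gaussianReal 0 1) r n ∂gaussianReal 0 1 =
      ∑ i : Fin n → ι, chCo c i * ∑ sg : Fin n → Bool, Real.cos (phase θ i sg) *
        Real.exp (-(δ * (∑ l, freq t i sg l ^ 2) + treeVar ρ v (freq t i sg)) / 2) := by
  have hcm : ∀ (i : Fin n → ι) (sg : Fin n → Bool), Measurable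
      fun p : ℝ × (Fin r → Fin n → ℝ) => Real.cos (phase θ i sg +
        ∑ l, freq t i sg l * pathField ρ p.1 (shapeMarks v p.2 l)) := fun i sg =>
    Real.continuous_cos.measurable.comp ((Finset.measurable_sum _ fun l _ =>
      ((continuous_pathField ρ).measurable.comp (measurable_fst.prodMk
        ((Vale.Agent.P168.Cascade.measurable_shapeMarks v l).comp measurable_snd))).const_mul
          _).const_add _)
  have hcos : ∀ (i : Fin n → ι) (sg : Fin n → Bool) (g₀ : ℝ), Integrable
      (fun ω : Fin r → Fin n → ℝ => Real.cos (phase θ i sg +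
        ∑ l, freq t i sg l * pathField ρ g₀ (shapeMarks v ω l)))
      (tableLaw (gaussianReal 0 1) r n) := fun i sg g₀ =>
    Integrable.of_bound ((hcm i sg).comp (measurable_const.prodMk measurable_id)
      ).aestronglyMeasurable 1 (ae_of_all _ fun ω => Real.abs_cos_le_one _)
  have hout : ∀ (i : Fin n → ι) (sg : Fin n → Bool), Integrable (fun g₀ =>
      ∫ ω : Fin r → Fin n → ℝ, Real.cos (phase θ i sg +
        ∑ l, freq t i sg l * pathField ρ g₀ (shapeMarks v ω l))
          ∂tableLaw (gaussianReal 0 1) r n) (gaussianReal 0 1) := fun i sg =>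
    integrable_of_abs_le ((hcm i sg).stronglyMeasurable.integral_prod_right'
      (ν := tableLaw (gaussianReal 0 1) r n)).measurable (K := 1) fun g =>
        Site.abs_integral_le fun ω => Real.abs_cos_le_one _
  have hinner : ∀ g₀, ∫ ω, ∏ l, psum (pco δ (c l) t) t θ (pathField ρ g₀ (shapeMarks v ω l))
      ∂tableLaw (gaussianReal 0 1) r n =
      ∑ i : Fin n → ι, chCo (fun l => pco δ (c l) t) i * ∑ sg : Fin n → Bool,
        ∫ ω : Fin r → Fin n → ℝ, Real.cos (phase θ i sg +
          ∑ l, freq t i sg l * pathField ρ g₀ (shapeMarks v ω l))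
            ∂tableLaw (gaussianReal 0 1) r n := fun g₀ => by
    simp only [prod_psum_eq]
    rw [integral_finsetSum _ fun i _ =>
      (integrable_finsetSum _ fun sg _ => hcos i sg g₀).const_mul _]
    refine Finset.sum_congr rfl fun i _ => ?_
    rw [integral_const_mul, integral_finsetSum _ fun sg _ => hcos i sg g₀]
  simp only [hinner]
  rw [integral_finsetSum _ fun i _ => (integrable_finsetSum _ fun sg _ => hout i sg).const_mul _]
  refine Finset.sum_congr rfl fun i _ => ?_
  rw [integral_const_mul, integral_finsetSum _ fun sg _ => hout i sg, Finset.mul_sum,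
    Finset.mul_sum]
  refine Finset.sum_congr rfl fun sg _ => ?_
  rw [integral_cos_field_phase hv hρ h0]
  simp only [chCo, pco, freq, Finset.prod_mul_distrib, ← Real.exp_sum, mul_pow, sgn_sq, one_mul]
  rw [neg_add, add_div, Real.exp_add, Finset.mul_sum, ← Finset.sum_div, Finset.sum_neg_distrib]
  ring

lemma mixTree_eq (ξ : Path) {ρ : Fin (ξ.r + 1) → ℝ} (hρ : Monotone ρ) (h0 : 0 ≤ ρ 0)
    (c : Fin n → ι → ℝ) (t θ : ι → ℝ) (δ : ℝ) :
    mixTree ξ ρ F (fun l => psum (pco δ (c l) t) t θ) =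
      ∑ v : Shape ξ.r n, shapeProb ξ.m n v * (F (ξ.gram v) *
        ∑ i : Fin n → ι, chCo c i * ∑ sg : Fin n → Bool, Real.cos (phase θ i sg) *
          Real.exp (-(δ * (∑ l, freq t i sg l ^ 2) + treeVar ρ v (freq t i sg)) / 2)) := by
  have hi : ∀ v : Shape ξ.r n, Integrable (fun g₀ => ∫ ω,
      ∏ l, psum (pco δ (c l) t) t θ (pathField ρ g₀ (shapeMarks v ω l))
      ∂tableLaw (gaussianReal 0 1) ξ.r n) (gaussianReal 0 1) := fun v =>
    integrable_fieldProd (ψl := fun l => psum (pco δ (c l) t) t θ)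
      (fun l => continuous_psum _ _ _) (fun l => abs_psum_le _ _ _) v
  rw [mixTree, integral_finsetSum _ fun v _ => ((hi v).const_mul _).const_mul _]
  refine Finset.sum_congr rfl fun v _ => ?_
  rw [integral_const_mul, integral_const_mul]
  rcases eq_or_ne (shapeProb ξ.m n v) 0 with h | h
  · simp [h]
  rw [integral_prod_field (Vale.Agent.P168.Cascade.isTree_of_prob h) hρ h0]

/-- Weighted mixed moments converge to their values on the tree. -/
theorem tendsto_mixMom (hcont : ContStmt) (hslope : SlopeStmt) (h : Setup α A C f Nj xj μj ξ)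
    (hFc : Continuous F) (hF : ∀ O, |F O| ≤ 1) (c : Fin n → ι → ℝ) (t θ : ι → ℝ) :
    Tendsto (fun j => mixMom f (scale (Nj j)) (xj j) (Nj j) (μj j) F
        (fun l => psum (c l) t θ) -
      mixTree (ξ j) (rhoOf α f (ξ j)) F
        (fun l => spread (deltaOf α f (ξ j)) (psum (c l) t θ))) atTop (𝓝 0) := by
  have hsum := tendsto_finsetSum (Finset.univ : Finset (Fin n → ι)) fun i _ =>
    (tendsto_finsetSum (Finset.univ : Finset (Fin n → Bool)) fun sg _ =>
      (tendsto_expMeanF hcont hslope h hFc hF (freq t i sg)).const_mul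
        (Real.cos (phase θ i sg))).const_mul (chCo c i)
  simp only [Finset.sum_const_zero, mul_zero] at hsum
  refine hsum.congr fun j => ?_
  obtain ⟨hρ, hρ0, hδ, -⟩ := slope_facts hslope h.smooth h.alpha.le (ξ j)
  have e : (fun l => spread (deltaOf α f (ξ j)) (psum (c l) t θ)) =
      fun l => psum (pco (deltaOf α f (ξ j)) (c l) t) t θ :=
    funext fun l => funext fun y => psum_spread _ _ _ hδ y
  rw [e, mixMom_eq h.smooth hF, mixTree_eq (ξ j) hρ hρ0]
  simp only [Finset.sum_sub_distrib, mul_sub]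
  congr 1
  simp only [expTreeF, Finset.mul_sum]
  conv_rhs => rw [Finset.sum_comm]
  refine Finset.sum_congr rfl fun i _ => ?_
  conv_rhs => rw [Finset.sum_comm]
  exact Finset.sum_congr rfl fun sg _ => Finset.sum_congr rfl fun v _ => by ring

end Vale.Agent.P157.Parisi.Full.CutLimit
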