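import Vale.Agent.P157.Parisi.Upper.SumSq
import Vale.Agent.P157.Parisi.Site.Gauss
import Vale.Agent.P157.Parisi.Cont.Rep
import Vale.Agent.P157.Parisi.ModA.TiltFactor

/-!
A polynomial combination of untilted tree moments is close to the tilted pair moments.
-/

noncomputable section

open MeasureTheory ProbabilityTheory Filter
open scoped BigOperators Topology

namespace Vale.Agent.P157.Parisi.Full.CutLimit

open Vale.Agent.P168 (Shape shapeProb shapeMarks shapeRep CascTree cascLaw cascSum cascFilter)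
open Vale.Agent.P168.Cascade
open Vale.Agent.P168.Upper (integral_mp cascFilter_neBot mp_curry)
open Up (pairM inc integrable_bdd)
open Cont (coin sign logW_one)

variable {β : Type} [MeasurableSpace β] (ν : Measure β) [IsProbabilityMeasure ν] {r k : ℕ}

instance : IsProbabilityMeasure coin := PMF.toMeasure.isProbabilityMeasure _

lemma abs_sign_le (b : Bool) : |sign b| ≤ 1 := by cases b <;> simp [sign]

lemma measurable_sign : Measurable sign := Measurable.of_discrete

lemma integral_sign : ∫ x, sign x ∂coin = 0 := by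
  rw [coin, PMF.integral_eq_sum]; simp [sign]

lemma integral_sign_sq : ∫ x, sign x * sign x ∂coin = 1 := by
  have : ∀ x, sign x * sign x = 1 := fun x => by cases x <;> simp [sign]
  simp only [this, integral_const, probReal_univ, one_smul]

/-- A field of signs with covariance path `Q`. -/
def sgnField (Q : Fin (r + 1) → ℝ) (η : Fin r → Bool) : ℝ :=
  Real.sqrt (Q 0) + ∑ p, Real.sqrt (inc Q p) * sign (η p)

/-- A bound for it. -/
def sgnBd (Q : Fin (r + 1) → ℝ) : ℝ := |Real.sqrt (Q 0)| + ∑ p, |Real.sqrt (inc Q p)| * 1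

lemma abs_sgnField_le (Q : Fin (r + 1) → ℝ) (η : Fin r → Bool) : |sgnField Q η| ≤ sgnBd Q :=
  (abs_add_le _ _).trans (add_le_add le_rfl ((Finset.abs_sum_le_sum_abs _ _).trans
    (Finset.sum_le_sum fun p _ => by
      rw [abs_mul]; exact mul_le_mul_of_nonneg_left (abs_sign_le _) (abs_nonneg _))))

lemma measurable_sgnField (Q : Fin (r + 1) → ℝ) : Measurable (sgnField Q) := Measurable.of_discrete

lemma pairM_sgnField {m : Fin r → ℝ} (hm : Exps m) {Q : Fin (r + 1) → ℝ} (hQ : Monotone Q)
    (h0 : 0 ≤ Q 0) (p : Fin (r + 1)) :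
    pairM coin m (fun _ => 1) (sgnField Q) (sgnField Q) p = Q p := by
  have h := Up.pairM_lin coin measurable_sign abs_sign_le integral_sign hm (Real.sqrt (Q 0))
    (fun i => Real.sqrt (inc Q i)) p
  refine h.trans ?_
  simp only [integral_sign_sq, one_mul, Real.mul_self_sqrt h0,
    Real.mul_self_sqrt (Up.inc_nonneg hQ _), Up.sum_inc_lt]

lemma integral_sgnField {v : Shape r k} (hv : IsTree v) {Q : Fin (r + 1) → ℝ} (hQ : Monotone Q)
    (h0 : 0 ≤ Q 0) (a b : Fin k) :
    ∫ ω, sgnField Q (shapeMarks v ω a) * sgnField Q (shapeMarks v ω b) ∂tableLaw coin r k =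
      Q (v a b) := by
  classical
  let A : Fin k → Fin r × Fin k → ℝ := fun l x =>
    if x.2 = shapeRep v (x.1.val + 1) l then Real.sqrt (inc Q x.1) else 0
  set c := Real.sqrt (Q 0)
  have hA : ∀ (l : Fin k) (z : Fin r × Fin k → Bool),
      sgnField Q (shapeMarks v (fun i j => z (i, j)) l) = c + ∑ x, A l x * sign (z x) := by
    intro l z
    simp only [sgnField, shapeMarks, Fintype.sum_prod_type, A, ite_mul, zero_mul,
      Finset.sum_ite_eq', Finset.mem_univ, if_true, c]
  have hmp : MeasurePreserving (fun x : Fin r × Fin k → Bool => fun i j => x (i, j))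
      (Measure.pi fun _ => coin) (tableLaw coin r k) := mp_curry coin
  rw [← integral_mp hmp (g := fun ω : Fin r → Fin k → Bool =>
    sgnField Q (shapeMarks v ω a) * sgnField Q (shapeMarks v ω b)) Measurable.of_discrete]
  simp only [hA]
  have hi : ∀ F : (Fin r × Fin k → Bool) → ℝ, Integrable F (Measure.pi fun _ => coin) :=
    fun F => Integrable.of_finite
  have e2 : ∀ z : Fin r × Fin k → Bool,
      (c + ∑ x, A a x * sign (z x)) * (c + ∑ x, A b x * sign (z x)) =
      c * c + c * (∑ x, A a x * sign (z x)) + (c * (∑ x, A b x * sign (z x)) +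
        (∑ x, A a x * sign (z x)) * ∑ x, A b x * sign (z x)) := fun z => by ring
  simp only [e2]
  rw [integral_add (hi _) (hi _), integral_add (hi _) (hi _), integral_add (hi _) (hi _)]
  simp only [integral_const_mul, Up.integral_lin measurable_sign abs_sign_le integral_sign]
  rw [Up.integral_lin_mul measurable_sign abs_sign_le integral_sign, integral_sign_sq]
  simp only [integral_const, probReal_univ, one_smul, mul_zero, add_zero, zero_add, one_mul, c,
    Real.mul_self_sqrt h0]
  rw [← Up.sum_inc_lt Q (v a b), Fintype.sum_prod_type]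
  congr 1
  refine Finset.sum_congr rfl fun p _ => ?_
  simp only [A, ite_mul, zero_mul, Finset.sum_ite_eq', Finset.mem_univ, if_true, mul_ite, mul_zero,
    Real.mul_self_sqrt (Up.inc_nonneg hQ _)]
  exact if_congr (eq_comm.trans (Site.rep_eq_iff_le hv p.isLt a b)) rfl rfl

/-- The limit of the mean product of untilted cascade averages. -/
lemma tendsto_prod_ratio_one {m : Fin r → ℝ} (hm : Exps m) {g : Fin (k + 1) → (Fin r → β) → ℝ}
    {B : ℝ} (hgm : ∀ a, Measurable (g a)) (hg : ∀ a ω, |g a ω| ≤ B) :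
    Tendsto (fun n => ∫ t, ∏ a, ratio m n (fun _ => 1) (g a) t ∂cascLaw ν r n) (cascFilter r)
      (𝓝 (∑ v : Shape r (k + 1), shapeProb m (k + 1) v *
        ∫ ω, ∏ a, g a (shapeMarks v ω a) ∂tableLaw ν r (k + 1))) := by
  obtain ⟨ω₀⟩ : Nonempty (Fin r → β) :=
    nonempty_of_isProbabilityMeasure (Measure.pi fun _ => ν)
  set B' := B + 1
  have hB : 0 < B' := by linarith [(abs_nonneg _).trans (hg 0 ω₀)]
  have hlim := integral_prod_ratio_tendsto ν k hm le_rfl
    (Y := fun _ => 1) ⟨one_pos, measurable_const, fun _ => by simp⟩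
    (g := fun a ω => B'⁻¹ * g a ω) (fun a => (hgm a).const_mul _) fun a ω => by
      rw [abs_mul, abs_of_pos (inv_pos.2 hB), inv_mul_le_iff₀ hB, mul_one]
      linarith [hg a ω]
  have h2 := hlim.const_mul (B' ^ (k + 1))
  have e1 : ∀ (n : Fin r → ℕ) (a : Fin (k + 1)) (t : CascTree β r n),
      ratio m n (fun _ => 1) (fun ω => B'⁻¹ * g a ω) t =
        B'⁻¹ * ratio m n (fun _ => 1) (g a) t := fun n a t => by
    rw [ratio, ratio, cascSum_smul, mul_div_assoc]
  have e2 : B' ^ (k + 1) * B'⁻¹ ^ (k + 1) = 1 := by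
    rw [← mul_pow, mul_inv_cancel₀ hB.ne', one_pow]
  simp only [tiltMoment, logW_one ν hm, Real.exp_zero, one_mul, e1, Finset.prod_mul_distrib,
    Finset.prod_const, Finset.card_univ, Fintype.card_fin, integral_const_mul, ← mul_assoc, e2,
    Finset.mul_sum] at h2
  refine Eq.mp ?_ h2
  congr 2
  refine Finset.sum_congr rfl fun v _ => ?_
  rw [mul_assoc (B' ^ (k + 1)), mul_comm (shapeProb m (k + 1) v), ← mul_assoc, e2, one_mul]

/-- Two numerators and `i` denominators. -/
def pairFam {γ : Type} (g Y : γ → ℝ) (i : ℕ) : Fin (i + 2) → γ → ℝ :=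
  Fin.cons g (Fin.cons g fun _ => Y)

lemma prod_pairFam {γ : Type} (F : (γ → ℝ) → ℝ) (g Y : γ → ℝ) (i : ℕ) :
    ∏ a, F (pairFam g Y i a) = F g * F g * F Y ^ i := by
  simp [pairFam, Fin.prod_univ_succ, mul_assoc]

lemma abs_pairM_one_le {m : Fin r → ℝ} (hm : Exps m) {g : (Fin r → β) → ℝ} {M : ℝ} (hM : 0 < M)
    (hg : ∀ ω, |g ω| ≤ M) (p : Fin (r + 1)) :
    |pairM ν m (fun _ => 1) g g p| ≤ M * M := by
  have e : g = fun ω => M * (M⁻¹ * g ω) := funext fun ω => by field_simp
  have h := Up.abs_pairM_le ν hm (C := 1) (Y := fun _ => 1)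
    (g := fun ω => M⁻¹ * g ω) (h := fun ω => M⁻¹ * g ω)
    ⟨one_pos, measurable_const, fun _ => by simp⟩ (fun ω => by
      rw [abs_mul, abs_of_pos (inv_pos.2 hM), inv_mul_le_iff₀ hM, mul_one]; exact hg ω) (fun ω => by
      rw [abs_mul, abs_of_pos (inv_pos.2 hM), inv_mul_le_iff₀ hM, mul_one]; exact hg ω) p
  rw [e, Up.pairM_smul, abs_mul, abs_of_pos (mul_pos hM hM)]
  exact mul_le_of_le_one_right (mul_pos hM hM).le h

/-- A polynomial close to `1/u²` turns untilted moments into tilted pair moments. -/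
theorem pair_series {m : Fin r → ℝ} (hm : Exps m) {Q : Fin (r + 1) → ℝ} (hQ : Monotone Q)
    (hQ0 : 0 ≤ Q 0) (hQ1 : Q (Fin.last r) ≤ 1) {M : ℝ} (hM : 1 ≤ M) {Y g : (Fin r → β) → ℝ}
    (hYm : Measurable Y) (hY : ∀ ω, 1 ≤ Y ω ∧ Y ω ≤ M) (hgm : Measurable g)
    (hg : ∀ ω, |g ω| ≤ M) {P : Polynomial ℝ} {ε : ℝ}
    (hP : ∀ u ∈ Set.Icc (1 : ℝ) M, |P.eval u - (u ^ 2)⁻¹| ≤ ε) :
    |∑ i ∈ Finset.range (P.natDegree + 1), P.coeff i * ∑ v : Shape r (i + 2),
        shapeProb m (i + 2) v * (Q (v 0 1) *
          ∫ ω, ∏ a, pairFam g Y i a (shapeMarks v ω a) ∂tableLaw ν r (i + 2)) -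
      ∑ p, weight m p * (Q p * pairM ν m Y g g p)| ≤ ε * (M * M) := by
  classical
  have hε : 0 ≤ ε := (abs_nonneg _).trans (hP 1 ⟨le_rfl, hM⟩)
  have hf : Measurable fun θ : Fin r → β × Bool => fun i => (θ i).1 := by fun_prop
  have hs : Measurable fun θ : Fin r → β × Bool => fun i => (θ i).2 := by fun_prop
  set one' : (Fin r → β × Bool) → ℝ := fun _ => 1 with hone
  set Y₁ : (Fin r → β × Bool) → ℝ := fun η => (Y fun i => (η i).1) * 1 with hY₁def
  set G : (Fin r → β × Bool) → ℝ :=
    fun η => (g fun i => (η i).1) * sgnField Q fun i => (η i).2 with hGdef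
  set C := max M (sgnBd Q)
  have hMC : M ≤ C := le_max_left _ _
  have hC1 : 1 ≤ C := hM.trans hMC
  have hBC : sgnBd Q ≤ C := le_max_right _ _
  have hY' : Bdd C Y := ⟨one_pos.trans_le hC1, hYm, fun ω =>
    ⟨(inv_le_one_of_one_le₀ hC1).trans (hY ω).1, (hY ω).2.trans hMC⟩⟩
  have h1Y : Bdd C (fun _ : Fin r → β => (1 : ℝ)) :=
    ⟨one_pos.trans_le hC1, measurable_const, fun _ => ⟨inv_le_one_of_one_le₀ hC1, hC1⟩⟩
  have h1C : Bdd C (fun _ : Fin r → Bool => (1 : ℝ)) :=
    ⟨one_pos.trans_le hC1, measurable_const, fun _ => ⟨inv_le_one_of_one_le₀ hC1, hC1⟩⟩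
  have hY₁ : Bdd C Y₁ := ⟨hY'.pos, (hYm.comp hf).mul_const 1, fun η => by
    simpa [Y₁] using hY'.mem _⟩
  have h1p : Bdd C one' :=
    ⟨one_pos.trans_le hC1, measurable_const, fun _ => ⟨inv_le_one_of_one_le₀ hC1, hC1⟩⟩
  have hGm : Measurable G := (hgm.comp hf).mul ((measurable_sgnField Q).comp hs)
  set BG := M * sgnBd Q
  have hGb : ∀ η, |G η| ≤ BG := fun η => by
    simp only [G]
    rw [abs_mul]
    exact mul_le_mul (hg _) (abs_sgnField_le Q _) (abs_nonneg _) (zero_le_one.trans hM)
  have hsb : 0 ≤ sgnBd Q := (abs_nonneg _).trans (abs_sgnField_le Q fun _ => true)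
  have hBG : 0 ≤ BG := mul_nonneg (zero_le_one.trans hM) hsb
  set ν' := ν.prod coin
  -- the moments
  set T : ℕ → ℝ := fun i => ∑ v : Shape r (i + 2), shapeProb m (i + 2) v * (Q (v 0 1) *
    ∫ ω, ∏ a, pairFam g Y i a (shapeMarks v ω a) ∂tableLaw ν r (i + 2))
  have hT : ∀ i, Tendsto (fun n => ∫ t, ratio m n one' G t * ratio m n one' G t *
      ratio m n one' Y₁ t ^ i ∂cascLaw ν' r n) (cascFilter r) (𝓝 (T i)) := by
    intro i
    set fam : Fin (i + 2) → (Fin r → β × Bool) → ℝ := fun a η =>
      pairFam g Y i a (fun j => (η j).1) * pairFam (sgnField Q) (fun _ => 1) i a fun j => (η j).2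
    have hpm : ∀ a, Measurable (pairFam g Y i a) := by
      intro a
      induction a using Fin.cases with
      | zero => exact hgm
      | succ a => induction a using Fin.cases with
        | zero => exact hgm
        | succ a => exact hYm
    have hpb : ∀ a ω, |pairFam g Y i a ω| ≤ C := by
      intro a ω
      induction a using Fin.cases with
      | zero => exact (hg ω).trans hMC
      | succ a => induction a using Fin.cases with
        | zero => exact (hg ω).trans hMC
        | succ a =>
          show |Y ω| ≤ C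
          rw [abs_of_nonneg (zero_le_one.trans (hY ω).1)]
          exact (hY ω).2.trans hMC
    have hqm : ∀ a, Measurable (pairFam (sgnField Q) (fun _ => (1 : ℝ)) i a) :=
      fun a => Measurable.of_discrete
    have hqb : ∀ a η, |pairFam (sgnField Q) (fun _ => (1 : ℝ)) i a η| ≤ C := by
      intro a η
      induction a using Fin.cases with
      | zero => exact (abs_sgnField_le Q η).trans hBC
      | succ a => induction a using Fin.cases with
        | zero => exact (abs_sgnField_le Q η).trans hBC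
        | succ a =>
          show |(1 : ℝ)| ≤ C
          rwa [abs_one]
    have hlim := tendsto_prod_ratio_one ν' hm (k := i + 1) (g := fam)
      (fun a => ((hpm a).comp hf).mul ((hqm a).comp hs)) (B := C * C) fun a η => by
        simp only [fam]
        rw [abs_mul]
        exact mul_le_mul (hpb _ _) (hqb _ _) (abs_nonneg _) (zero_le_one.trans hC1)
    have hfam : fam = pairFam G Y₁ i := by
      funext a η
      induction a using Fin.cases with
      | zero => rfl
      | succ a => induction a using Fin.cases with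
        | zero => rfl
        | succ a => rfl
    have eT : ∑ v : Shape r (i + 1 + 1), shapeProb m (i + 1 + 1) v *
        ∫ ω, ∏ a, fam a (shapeMarks v ω a) ∂tableLaw ν' r (i + 1 + 1) = T i := by
      refine Finset.sum_congr rfl fun v _ => ?_
      rcases eq_or_ne (shapeProb m (i + 2) v) 0 with h | h
      · simp [h]
      have hv := isTree_of_prob h
      congr 1
      have e := tilt_factor β Bool ν coin r (i + 2) m hm C (fun _ => 1) (fun _ => 1) h1Y h1C
        (pairFam g Y i) (pairFam (sgnField Q) (fun _ => 1) i) hpm hqm hpb hqb v hv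
      simp only [mul_one, logW_one ν hm, logW_one coin hm, logW_one (ν.prod coin) hm,
        Real.exp_zero, one_mul] at e
      have e0 : ∀ ω : Fin r → Fin (i + 2) → Bool,
          ∏ a, pairFam (sgnField Q) (fun _ => (1 : ℝ)) i a (shapeMarks v ω a) =
            sgnField Q (shapeMarks v ω 0) * sgnField Q (shapeMarks v ω 1) := fun ω => by
        simp [pairFam, Fin.prod_univ_succ]
      simp only [e0, integral_sgnField hv hQ hQ0] at e
      exact e.trans (mul_comm _ _)
    rw [eT] at hlim
    refine hlim.congr fun n => integral_congr_ae (Eventually.of_forall fun t => ?_)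
    simp only [hfam]
    exact prod_pairFam (fun f => ratio m n one' f t) G Y₁ i
  -- the two quadratic limits
  have hYlim := Up.tendsto_ratio_mul ν' hm hY₁ hGm hGm hGb hGb
  have h1lim := Up.tendsto_ratio_mul ν' hm h1p hGm hGm hGb hGb
  have hsum : Tendsto (fun n => ∑ i ∈ Finset.range (P.natDegree + 1),
      P.coeff i * ∫ t, ratio m n one' G t * ratio m n one' G t * ratio m n one' Y₁ t ^ i
        ∂cascLaw ν' r n) (cascFilter r)
      (𝓝 (∑ i ∈ Finset.range (P.natDegree + 1), P.coeff i * T i)) :=
    tendsto_finsetSum _ fun i _ => (hT i).const_mul _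
  have hfin : ∀ᶠ n in cascFilter r, |(∑ i ∈ Finset.range (P.natDegree + 1),
      P.coeff i * ∫ t, ratio m n one' G t * ratio m n one' G t * ratio m n one' Y₁ t ^ i
        ∂cascLaw ν' r n) - ∫ t, ratio m n Y₁ G t * ratio m n Y₁ G t ∂cascLaw ν' r n| ≤
      ε * ∫ t, ratio m n one' G t * ratio m n one' G t ∂cascLaw ν' r n := by
    filter_upwards [eventually_pos r] with n hn
    have hrm : ∀ {Z F : (Fin r → β × Bool) → ℝ}, Measurable Z → Measurable F →
        Measurable fun t => ratio m n Z F t := fun hZ hF =>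
      (measurable_cascSum m n hF).div (measurable_cascSum m n hZ)
    have hRmem : ∀ t, GoodTree r n t → ratio m n one' Y₁ t ∈ Set.Icc (1 : ℝ) M := by
      intro t ht
      have hS := cascSum_one_pos m hn ht
      have h1 := cascSum_mono (m := m) (Y := one') (Y' := Y₁)
        (fun ω => by simpa [Y₁, one'] using (hY _).1) ht
      have h2 := cascSum_mono (m := m) (Y := Y₁) (Y' := fun _ => M * 1)
        (fun ω => by simpa [Y₁] using (hY _).2) ht
      rw [cascSum_smul m n (fun _ => 1)] at h2
      exact ⟨(le_div_iff₀ hS).2 (by rw [one_mul]; exact h1), (div_le_iff₀ hS).2 h2⟩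
    have hi : ∀ i : ℕ, Integrable (fun t => ratio m n one' G t * ratio m n one' G t *
        ratio m n one' Y₁ t ^ i) (cascLaw ν' r n) := by
      intro i
      refine Integrable.of_bound (((hrm h1p.meas hGm).mul (hrm h1p.meas hGm)).mul
        ((hrm h1p.meas hY₁.meas).pow_const i)).aestronglyMeasurable
        ((C * BG) * (C * BG) * M ^ i) ((ae_good ν' r n).mono fun t ht => ?_)
      rw [Real.norm_eq_abs, abs_mul, abs_mul, abs_pow]
      have h := Up.abs_ratio_le' h1p hBG hGb m n ht
      have hCB : 0 ≤ C * BG := mul_nonneg (zero_le_one.trans hC1) hBG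
      refine mul_le_mul (mul_le_mul h h (abs_nonneg _) hCB)
        (pow_le_pow_left₀ (abs_nonneg _) ?_ i) (by positivity) (mul_nonneg hCB hCB)
      rw [abs_of_nonneg (zero_le_one.trans (hRmem t ht).1)]
      exact (hRmem t ht).2
    have hiY : Integrable (fun t => ratio m n Y₁ G t * ratio m n Y₁ G t) (cascLaw ν' r n) := by
      refine Integrable.of_bound ((hrm hY₁.meas hGm).mul (hrm hY₁.meas hGm)).aestronglyMeasurable
        ((C * BG) * (C * BG)) ((ae_good ν' r n).mono fun t ht => ?_)
      rw [Real.norm_eq_abs, abs_mul]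
      exact mul_le_mul (Up.abs_ratio_le' hY₁ hBG hGb m n ht) (Up.abs_ratio_le' hY₁ hBG hGb m n ht)
        (abs_nonneg _) (mul_nonneg (zero_le_one.trans hC1) hBG)
    have hi0 : Integrable (fun t => ratio m n one' G t * ratio m n one' G t) (cascLaw ν' r n) := by
      simpa using hi 0
    simp only [← integral_const_mul]
    rw [← integral_finsetSum _ fun i _ => (hi i).const_mul _,
      ← integral_sub (integrable_finsetSum _ fun i _ => (hi i).const_mul _) hiY,
      ← Real.norm_eq_abs]
    refine norm_integral_le_of_norm_le (hi0.const_mul ε) ((ae_good ν' r n).mono fun t ht => ?_)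
    rw [Real.norm_eq_abs]
    set x := ratio m n one' G t
    set R := ratio m n one' Y₁ t
    have hR : R ∈ Set.Icc (1 : ℝ) M := hRmem t ht
    have hS : cascSum r m n one' t ≠ 0 := (cascSum_one_pos m hn ht).ne'
    have hxR : ratio m n Y₁ G t = x / R := by
      simp only [x, R, ratio]
      field_simp
    have e : ∑ i ∈ Finset.range (P.natDegree + 1), P.coeff i * (x * x * R ^ i) =
        x * x * P.eval R := by
      rw [Polynomial.eval_eq_sum_range, Finset.mul_sum]
      exact Finset.sum_congr rfl fun i _ => by ring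
    rw [e, hxR, show x * x * P.eval R - x / R * (x / R) = x * x * (P.eval R - (R ^ 2)⁻¹) by ring,
      abs_mul, abs_of_nonneg (mul_self_nonneg x), mul_comm ε]
    exact mul_le_mul_of_nonneg_left (hP R hR) (mul_self_nonneg x)
  have := cascFilter_neBot r
  have hkey := le_of_tendsto_of_tendsto ((hsum.sub hYlim).abs) (h1lim.const_mul ε) hfin
  have eY : ∀ p, pairM ν' m Y₁ G G p = Q p * pairM ν m Y g g p := fun p => by
    rw [← pairM_sgnField hm hQ hQ0 p, mul_comm]
    exact Up.pairM_prod tilt_factor ν coin hm hY' h1C hgm hgm (measurable_sgnField Q)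
      (measurable_sgnField Q) (fun ω => (hg ω).trans hMC) (fun ω => (hg ω).trans hMC)
      (fun η => (abs_sgnField_le Q η).trans hBC) (fun η => (abs_sgnField_le Q η).trans hBC) p
  have e1 : ∀ p, pairM ν' m one' G G p = Q p * pairM ν m (fun _ => 1) g g p := fun p => by
    rw [← pairM_sgnField hm hQ hQ0 p, mul_comm]
    refine Eq.trans ?_ (Up.pairM_prod tilt_factor ν coin hm h1Y h1C hgm hgm (measurable_sgnField Q)
      (measurable_sgnField Q) (fun ω => (hg ω).trans hMC) (fun ω => (hg ω).trans hMC)
      (fun η => (abs_sgnField_le Q η).trans hBC) (fun η => (abs_sgnField_le Q η).trans hBC) p)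
    simp [one', G, ν']
  simp only [eY, e1] at hkey
  refine hkey.trans (mul_le_mul_of_nonneg_left ?_ hε)
  calc ∑ p, weight m p * (Q p * pairM ν m (fun _ => 1) g g p)
      ≤ ∑ p, weight m p * (M * M) := Finset.sum_le_sum fun p _ => by
        refine mul_le_mul_of_nonneg_left ?_ (Up.weight_nonneg hm p)
        have hQp : 0 ≤ Q p := hQ0.trans (hQ (Fin.zero_le _))
        calc Q p * pairM ν m (fun _ => 1) g g p ≤ Q p * (M * M) :=
              mul_le_mul_of_nonneg_left
                ((le_abs_self _).trans (abs_pairM_one_le ν hm (one_pos.trans_le hM) hg p)) hQp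
          _ ≤ M * M := mul_le_of_le_one_left (by positivity) ((hQ (Fin.le_last p)).trans hQ1)
    _ = M * M := by rw [← Finset.sum_mul, Up.sum_weight, one_mul]

end Vale.Agent.P157.Parisi.Full.CutLimit
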