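import Vale.Agent.P157.Full.Statements
import Vale.Agent.P157.Full.CutLimit.Moments
import Vale.Agent.P157.Full.CutLimit.PairTree
import Vale.Agent.P157.Parisi.Upper.Weights
import Vale.Agent.P157.Parisi.Perturb.Basic
import Vale.Agent.P157.Parisi.Cont.Main
import Vale.Agent.P157.Parisi.ModA.Slope
import Vale.Agent.P157.Parisi.ModA.TreeShape

/-!
Module L2a: cavity averages of two replicas with trigonometric sums converge to the cascade.
-/

noncomputable section

open MeasureTheory ProbabilityTheory Filter Topology Finset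
open scoped BigOperators NNReal

namespace Vale.Agent.P157.Parisi.Full.CutLimit

open Site
open Vale.Agent.P168 (Shape shapeProb shapeMarks)
open Vale.Agent.P168.Cascade (Exps IsTree Bdd tableLaw)

variable {N L n : ℕ} {f : ℝ → ℝ} {A α C : ℝ}

/-- The power of the first overlap, clamped. -/
def overlapPow (k i : ℕ) (O : Fin (i + 2) → Fin (i + 2) → ℝ) : ℝ :=
  max (-1) (min 1 (O 0 1)) ^ k

lemma continuous_overlapPow (k i : ℕ) : Continuous (overlapPow k i) := by
  unfold overlapPow; fun_prop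

lemma abs_overlapPow_le (k i : ℕ) (O : Fin (i + 2) → Fin (i + 2) → ℝ) :
    |overlapPow k i O| ≤ 1 := by
  rw [overlapPow, abs_pow]
  exact pow_le_one₀ (abs_nonneg _)
    (abs_le.2 ⟨le_max_left _ _, max_le (by norm_num) (min_le_left _ _)⟩)

lemma overlapPow_overlaps (k i : ℕ) (σ : Fin (i + 2) → Cube N) :
    overlapPow k i (overlaps σ) = overlap (σ 0) (σ 1) ^ k := by
  obtain ⟨h1, h2⟩ := abs_le.1 (Vale.Agent.P157.Parisi.Perturb.abs_overlap_le (σ 0) (σ 1))
  rw [overlapPow, overlaps, min_eq_right h2, max_eq_right h1]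

lemma path_mem (ξ : Path) (p : Fin (ξ.r + 1)) : 0 ≤ ξ.q p ∧ ξ.q p ≤ 1 :=
  ⟨ξ.isPath.nonneg.trans (ξ.isPath.mono (Fin.zero_le _)),
    (ξ.isPath.mono (Fin.le_last _)).trans ξ.isPath.le_one⟩

lemma overlapPow_gram (k i : ℕ) (ξ : Path) (v : Shape ξ.r (i + 2)) :
    overlapPow k i (ξ.gram v) = ξ.q (v 0 1) ^ k := by
  obtain ⟨h1, h2⟩ := path_mem ξ (v 0 1)
  rw [overlapPow, Path.gram, if_neg (by simp), min_eq_right h2, max_eq_right (by linarith)]

lemma pairFam_apply {γ δ : Type} (h : (γ → ℝ) → δ → ℝ) (g Y : γ → ℝ) (i : ℕ) (a : Fin (i + 2)) :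
    h (pairFam g Y i a) = pairFam (h g) (h Y) i a := by
  induction a using Fin.cases with
  | zero => rfl
  | succ a => induction a using Fin.cases with
    | zero => rfl
    | succ a => rfl

lemma rep_pair (E : Cube N → ℝ) (i : ℕ) (K : Cube N → Cube N → ℝ) (Φ : Cube N → ℝ) :
    rep (i + 2) E (fun σ => K (σ 0) (σ 1) * ∏ l : Fin i, Φ (σ l.succ.succ)) =
      (∑ a, ∑ b, gib E a * gib E b * K a b) * (∑ a, gib E a * Φ a) ^ i := by
  rw [rep, ← (Fin.consEquiv fun _ => Cube N).sum_comp, Fintype.sum_prod_type, Finset.sum_mul]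
  refine Finset.sum_congr rfl fun a _ => ?_
  rw [← (Fin.consEquiv fun _ => Cube N).sum_comp, Fintype.sum_prod_type, Finset.sum_mul]
  refine Finset.sum_congr rfl fun b _ => ?_
  rw [Fintype.sum_pow, Finset.mul_sum]
  refine Finset.sum_congr rfl fun σ _ => ?_
  simp only [Fin.consEquiv_apply, Fin.prod_univ_succ, Fin.cons_zero, Fin.cons_succ, Fin.cons_one,
    Finset.prod_mul_distrib]
  ring

/-- The numerator. -/
def pairNum (f : ℝ → ℝ) (s : ℝ) (x : Fin L → ℝ) (k : ℕ) (ψ : ℝ → ℝ) (d : Dis N L) (z : ℕ → ℝ) :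
    ℝ :=
  ∑ σ : Cube N, ∑ τ : Cube N, gib (totalH f s x d) σ * gib (totalH f s x d) τ *
    (overlap σ τ ^ k * (ψ (cavY f z d σ) * ψ (cavY f z d τ)))

/-- The denominator. -/
def pairDen (f : ℝ → ℝ) (s : ℝ) (x : Fin L → ℝ) (φ : ℝ → ℝ) (d : Dis N L) (z : ℕ → ℝ) : ℝ :=
  ∑ σ : Cube N, gib (totalH f s x d) σ * φ (cavY f z d σ)

lemma mix_integrand (f : ℝ → ℝ) (s : ℝ) (x : Fin L → ℝ) (k i : ℕ) (φ ψ : ℝ → ℝ) (d : Dis N L)
    (z : ℕ → ℝ) :
    rep (i + 2) (totalH f s x d) (fun σ : Fin (i + 2) → Cube N =>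
      overlapPow k i (overlaps σ) * ∏ l, pairFam ψ φ i l (cavY f z d (σ l))) =
      pairNum f s x k ψ d z * pairDen f s x φ d z ^ i := by
  have e : ∀ σ : Fin (i + 2) → Cube N,
      overlapPow k i (overlaps σ) * ∏ l, pairFam ψ φ i l (cavY f z d (σ l)) =
      (overlap (σ 0) (σ 1) ^ k * (ψ (cavY f z d (σ 0)) * ψ (cavY f z d (σ 1)))) *
        ∏ l : Fin i, φ (cavY f z d (σ l.succ.succ)) := fun σ => by
    rw [overlapPow_overlaps, Fin.prod_univ_succ, Fin.prod_univ_succ]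
    simp only [pairFam, Fin.cons_zero, Fin.cons_succ, Fin.cons_one, Fin.succ_zero_eq_one]
    ring
  simp only [e]
  exact rep_pair (totalH f s x d) i
    (fun a b => overlap a b ^ k * (ψ (cavY f z d a) * ψ (cavY f z d b)))
    (fun a => φ (cavY f z d a))

lemma cutPair_eq (f : ℝ → ℝ) (s : ℝ) (x : Fin L → ℝ) (μ : ℝ) (k : ℕ) (φ ψ : ℝ → ℝ) :
    cutPair N f s x μ k φ ψ =
      ∫ d, ∫ z, pairNum f s x k ψ d z / pairDen f s x φ d z ^ 2 ∂zLaw ∂disLaw N L μ :=
  rfl

lemma abs_pairNum_le {M : ℝ} {ψ : ℝ → ℝ} (hψ : ∀ y, |ψ y| ≤ M) (s : ℝ) (x : Fin L → ℝ) (k : ℕ)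
    (d : Dis N L) (z : ℕ → ℝ) : |pairNum f s x k ψ d z| ≤ M * M := by
  have hM : 0 ≤ M := (abs_nonneg _).trans (hψ 0)
  refine (Finset.abs_sum_le_sum_abs _ _).trans ((Finset.sum_le_sum fun σ _ =>
    (Finset.abs_sum_le_sum_abs _ _).trans (Finset.sum_le_sum (g := fun τ =>
      gib (totalH f s x d) σ * gib (totalH f s x d) τ * (M * M)) fun τ _ => ?_)).trans_eq ?_)
  · rw [abs_mul, abs_of_nonneg (mul_nonneg (gib_nonneg _ _) (gib_nonneg _ _))]
    refine mul_le_mul_of_nonneg_left ((abs_mul_le_right ?_).trans ?_)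
      (mul_nonneg (gib_nonneg _ _) (gib_nonneg _ _))
    · exact Vale.Agent.P157.Parisi.Perturb.abs_overlap_pow_le σ τ k
    · rw [abs_mul]; exact mul_le_mul (hψ _) (hψ _) (abs_nonneg _) hM
  · simp only [← Finset.sum_mul, ← Finset.mul_sum, sum_gib, mul_one, one_mul]

lemma pairDen_mem {M : ℝ} {φ : ℝ → ℝ} (hφ : ∀ y, 1 ≤ φ y ∧ φ y ≤ M) (s : ℝ) (x : Fin L → ℝ)
    (d : Dis N L) (z : ℕ → ℝ) : pairDen f s x φ d z ∈ Set.Icc (1 : ℝ) M := by
  constructor
  · refine (sum_gib (totalH f s x d)).ge.trans (Finset.sum_le_sum fun σ _ => ?_)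
    exact le_mul_of_one_le_right (gib_nonneg _ _) (hφ _).1
  · refine le_trans (Finset.sum_le_sum fun σ _ =>
      mul_le_mul_of_nonneg_left (hφ _).2 (gib_nonneg _ _)) (le_of_eq ?_)
    rw [← Finset.sum_mul, sum_gib, one_mul]

lemma measurable_pairNum (hf : Smooth f A) (s : ℝ) (x : Fin L → ℝ) (k : ℕ) {ψ : ℝ → ℝ}
    (hψ : Continuous ψ) :
    Measurable fun p : Dis N L × (ℕ → ℝ) => pairNum f s x k ψ p.1 p.2 := by
  have hg : ∀ σ, Measurable fun p : Dis N L × (ℕ → ℝ) => gib (totalH f s x p.1) σ := fun σ =>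
    ((measurable_totalH hf.continuous s x σ).comp measurable_fst).exp.div
      (Finset.measurable_sum _ fun τ _ =>
        ((measurable_totalH hf.continuous s x τ).comp measurable_fst).exp)
  exact Finset.measurable_sum _ fun σ _ => Finset.measurable_sum _ fun τ _ =>
    ((hg σ).mul (hg τ)).mul (((hψ.measurable.comp (measurable_cavY hf σ)).mul
      (hψ.measurable.comp (measurable_cavY hf τ))).const_mul _)

lemma measurable_pairDen (hf : Smooth f A) (s : ℝ) (x : Fin L → ℝ) {φ : ℝ → ℝ}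
    (hφ : Continuous φ) :
    Measurable fun p : Dis N L × (ℕ → ℝ) => pairDen f s x φ p.1 p.2 := by
  have hg : ∀ σ, Measurable fun p : Dis N L × (ℕ → ℝ) => gib (totalH f s x p.1) σ := fun σ =>
    ((measurable_totalH hf.continuous s x σ).comp measurable_fst).exp.div
      (Finset.measurable_sum _ fun τ _ =>
        ((measurable_totalH hf.continuous s x τ).comp measurable_fst).exp)
  exact Finset.measurable_sum _ fun σ _ =>
    (hg σ).mul (hφ.measurable.comp (measurable_cavY hf σ))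

/-- A twice integrated bounded function of the disorder and the Gaussians. -/
lemma integral_two_facts {F : Dis N L × (ℕ → ℝ) → ℝ} (hm : Measurable F) {B : ℝ}
    (hb : ∀ p, |F p| ≤ B) (μ : ℝ) :
    (∀ d, Integrable (fun z => F (d, z)) zLaw) ∧
      Integrable (fun d => ∫ z, F (d, z) ∂zLaw) (disLaw N L μ) :=
  ⟨fun d => integrable_of_abs_le (hm.comp (measurable_const.prodMk measurable_id)) fun z => hb _,
    integrable_of_abs_le (hm.stronglyMeasurable.integral_prod_right' (ν := zLaw)).measurable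
      fun d => Site.abs_integral_le fun z => hb _⟩

lemma cutPair_approx (hf : Smooth f A) (s : ℝ) (x : Fin L → ℝ) (μ : ℝ) (k : ℕ) {M : ℝ}
    {φ ψ : ℝ → ℝ} (hφc : Continuous φ) (hφ : ∀ y, 1 ≤ φ y ∧ φ y ≤ M) (hψc : Continuous ψ)
    (hψ : ∀ y, |ψ y| ≤ M) {P : Polynomial ℝ} {ε : ℝ}
    (hP : ∀ u ∈ Set.Icc (1 : ℝ) M, |P.eval u - (u ^ 2)⁻¹| ≤ ε) :
    |∑ i ∈ Finset.range (P.natDegree + 1),
        P.coeff i * mixMom f s x N μ (overlapPow k i) (pairFam ψ φ i) -
      cutPair N f s x μ k φ ψ| ≤ ε * (M * M) := by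
  set Fi : ℕ → Dis N L × (ℕ → ℝ) → ℝ := fun i p =>
    pairNum f s x k ψ p.1 p.2 * pairDen f s x φ p.1 p.2 ^ i
  set Fc : Dis N L × (ℕ → ℝ) → ℝ := fun p =>
    pairNum f s x k ψ p.1 p.2 / pairDen f s x φ p.1 p.2 ^ 2
  have hM : 0 ≤ M := (abs_nonneg _).trans (hψ 0)
  have hI : ∀ i, (∀ d, Integrable (fun z => Fi i (d, z)) zLaw) ∧
      Integrable (fun d => ∫ z, Fi i (d, z) ∂zLaw) (disLaw N L μ) := fun i =>
    integral_two_facts ((measurable_pairNum hf s x k hψc).mul
      ((measurable_pairDen hf s x hφc).pow_const i)) (B := M * M * M ^ i) (fun p => by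
        show |pairNum f s x k ψ p.1 p.2 * pairDen f s x φ p.1 p.2 ^ i| ≤ _
        rw [abs_mul, abs_pow]
        refine mul_le_mul (abs_pairNum_le hψ s x k _ _) (pow_le_pow_left₀ (abs_nonneg _) ?_ i)
          (pow_nonneg (abs_nonneg _) i) (mul_nonneg hM hM)
        have h := pairDen_mem (f := f) hφ s x p.1 p.2
        rw [abs_of_nonneg (zero_le_one.trans h.1)]
        exact h.2) μ
  have hC : (∀ d, Integrable (fun z => Fc (d, z)) zLaw) ∧
      Integrable (fun d => ∫ z, Fc (d, z) ∂zLaw) (disLaw N L μ) :=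
    integral_two_facts ((measurable_pairNum hf s x k hψc).div
      ((measurable_pairDen hf s x hφc).pow_const 2)) (B := M * M) (fun p => by
        show |pairNum f s x k ψ p.1 p.2 / pairDen f s x φ p.1 p.2 ^ 2| ≤ _
        rw [abs_div]
        refine (div_le_self (abs_nonneg _) ?_).trans (abs_pairNum_le hψ s x k _ _)
        rw [abs_pow]
        exact one_le_pow₀ ((pairDen_mem (f := f) hφ s x p.1 p.2).1.trans (le_abs_self _))) μ
  have e : ∀ i, mixMom f s x N μ (overlapPow k i) (pairFam ψ φ i) =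
      ∫ d, ∫ z, Fi i (d, z) ∂zLaw ∂disLaw N L μ := fun i => by
    unfold mixMom
    simp only [mix_integrand, Fi]
  simp only [e, cutPair_eq, ← integral_const_mul]
  rw [← integral_finsetSum _ fun i _ => by simpa only [integral_const_mul] using (hI i).2.const_mul _,
    ← integral_sub (integrable_finsetSum _ fun i _ => by
      simpa only [integral_const_mul] using (hI i).2.const_mul _) hC.2]
  refine Site.abs_integral_le fun d => ?_
  rw [← integral_finsetSum _ fun i _ => ((hI i).1 d).const_mul _,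
    ← integral_sub (integrable_finsetSum _ fun i _ => ((hI i).1 d).const_mul _) (hC.1 d)]
  refine Site.abs_integral_le fun z => ?_
  simp only [Fi, Fc]
  set a := pairNum f s x k ψ d z
  set b := pairDen f s x φ d z
  have hb : b ∈ Set.Icc (1 : ℝ) M := pairDen_mem hφ s x d z
  have e2 : ∑ i ∈ Finset.range (P.natDegree + 1), P.coeff i * (a * b ^ i) = a * P.eval b := by
    rw [Polynomial.eval_eq_sum_range, Finset.mul_sum]
    exact Finset.sum_congr rfl fun i _ => by ring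
  rw [e2, div_eq_mul_inv, ← mul_sub, abs_mul, mul_comm ε]
  exact mul_le_mul (abs_pairNum_le hψ s x k d z) (hP b hb) (abs_nonneg _) (mul_nonneg hM hM)

/-! ### The tree side -/

lemma target_approx (ξ : Path) (ρ : Fin (ξ.r + 1) → ℝ) (δ : ℝ) (k : ℕ) {M : ℝ} {φ ψ : ℝ → ℝ}
    (hM : 1 ≤ M) (hφc : Continuous (spread δ φ)) (hφ : ∀ y, 1 ≤ φ y ∧ φ y ≤ M)
    (hφm : Measurable φ) (hψc : Continuous (spread δ ψ)) (hψ : ∀ y, |ψ y| ≤ M)
    {P : Polynomial ℝ} {ε : ℝ} (hP : ∀ u ∈ Set.Icc (1 : ℝ) M, |P.eval u - (u ^ 2)⁻¹| ≤ ε) :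
    |∑ i ∈ Finset.range (P.natDegree + 1), P.coeff i *
        mixTree ξ ρ (overlapPow k i) (pairFam (spread δ ψ) (spread δ φ) i) -
      pairTarget ξ.m ξ.q ρ δ k φ ψ| ≤ ε * (M * M) := by
  set μ := gaussianReal 0 1 with hμ
  have hm : Exps ξ.m := ⟨ξ.isPath.pos, ξ.isPath.lt_one, ξ.isPath.strictMono⟩
  have hsφ : ∀ y, 1 ≤ spread δ φ y ∧ spread δ φ y ≤ M := fun y => spread_mem hφm hφ δ y
  have hsψ : ∀ y, |spread δ ψ y| ≤ M := fun y => Site.abs_integral_le fun g => hψ _
  set Yt : ℝ → (Fin ξ.r → ℝ) → ℝ := fun e η => spread δ φ (pathField ρ e η)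
  set gt : ℝ → (Fin ξ.r → ℝ) → ℝ := fun e η => spread δ ψ (pathField ρ e η)
  have hYu : Measurable (Function.uncurry Yt) :=
    (hφc.comp (continuous_pathField ρ)).measurable
  have hgu : Measurable (Function.uncurry gt) :=
    (hψc.comp (continuous_pathField ρ)).measurable
  have hpb : ∀ e p, |Up.pairM μ ξ.m (Yt e) (gt e) (gt e) p| ≤ M * M := by
    intro e p
    have hM0 : 0 < M := one_pos.trans_le hM
    have hb : ∀ η, |M⁻¹ * gt e η| ≤ Yt e η := fun η => by
      rw [abs_mul, abs_of_pos (inv_pos.2 hM0), inv_mul_le_iff₀ hM0]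
      exact (hsψ _).trans (le_mul_of_one_le_right hM0.le (hsφ _).1)
    have h := Up.abs_pairM_le μ hm (C := M)
      ⟨hM0, hYu.comp (measurable_const.prodMk measurable_id), fun η =>
        ⟨(inv_le_one_of_one_le₀ hM).trans (hsφ _).1, (hsφ _).2⟩⟩ hb hb p
    have eg : gt e = fun η => M * (M⁻¹ * gt e η) := funext fun η => by field_simp
    rw [eg, Up.pairM_smul, abs_mul, abs_of_pos (mul_pos hM0 hM0)]
    exact mul_le_of_le_one_right (mul_pos hM0 hM0).le h
  have hpi : ∀ p, Integrable (fun e => Up.pairM μ ξ.m (Yt e) (gt e) (gt e) p) μ := fun p =>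
    integrable_of_abs_le (Up.measurable_pairM μ ξ.m hYu hgu hgu p) fun e => hpb e p
  have hwi : ∀ i, Integrable (fun e => ∑ v : Shape ξ.r (i + 2), shapeProb ξ.m (i + 2) v *
      (ξ.q (v 0 1) ^ k * ∫ ω, ∏ a, pairFam (gt e) (Yt e) i a (shapeMarks v ω a)
        ∂tableLaw μ ξ.r (i + 2))) μ := by
    intro i
    refine integrable_finsetSum _ fun v _ => ((Integrable.const_mul ?_ _).const_mul _)
    have h := integrable_fieldProd (ρ := ρ) (v := v)
      (ψl := pairFam (spread δ ψ) (spread δ φ) i) (fun l => ?_) (B := fun _ => M) (fun l y => ?_)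
    · refine h.congr (ae_of_all _ fun e => integral_congr_ae (ae_of_all _ fun ω =>
        Finset.prod_congr rfl fun a _ => ?_))
      exact congrFun (pairFam_apply (fun h (η : Fin ξ.r → ℝ) => h (pathField ρ e η))
        (spread δ ψ) (spread δ φ) i a) (shapeMarks v ω a)
    · induction l using Fin.cases with
      | zero => exact hψc
      | succ l => induction l using Fin.cases with
        | zero => exact hψc
        | succ l => exact hφc
    · induction l using Fin.cases with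
      | zero => exact hsψ y
      | succ l => induction l using Fin.cases with
        | zero => exact hsψ y
        | succ l =>
          show |spread δ φ y| ≤ M
          rw [abs_of_nonneg (zero_le_one.trans (hsφ y).1)]
          exact (hsφ y).2
  have eT : ∀ i, mixTree ξ ρ (overlapPow k i) (pairFam (spread δ ψ) (spread δ φ) i) =
      ∫ e, ∑ v : Shape ξ.r (i + 2), shapeProb ξ.m (i + 2) v *
        (ξ.q (v 0 1) ^ k * ∫ ω, ∏ a, pairFam (gt e) (Yt e) i a (shapeMarks v ω a)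
          ∂tableLaw μ ξ.r (i + 2)) ∂μ := by
    intro i
    refine integral_congr_ae (ae_of_all _ fun e => Finset.sum_congr rfl fun v _ => ?_)
    rw [overlapPow_gram]
    congr 2
    refine integral_congr_ae (ae_of_all _ fun ω => Finset.prod_congr rfl fun a _ => ?_)
    exact congrFun (pairFam_apply (fun h (η : Fin ξ.r → ℝ) => h (pathField ρ e η))
      (spread δ ψ) (spread δ φ) i a) (shapeMarks v ω a)
  have eP : pairTarget ξ.m ξ.q ρ δ k φ ψ =
      ∫ e, ∑ p, weight ξ.m p * (ξ.q p ^ k * Up.pairM μ ξ.m (Yt e) (gt e) (gt e) p) ∂μ := by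
    rw [integral_finsetSum _ fun p _ => ((hpi p).const_mul _).const_mul _]
    simp only [integral_const_mul]
    rfl
  have eS : ∫ e, (∑ i ∈ Finset.range (P.natDegree + 1), P.coeff i *
      ∑ v : Shape ξ.r (i + 2), shapeProb ξ.m (i + 2) v *
        (ξ.q (v 0 1) ^ k * ∫ ω, ∏ a, pairFam (gt e) (Yt e) i a (shapeMarks v ω a)
          ∂tableLaw μ ξ.r (i + 2))) ∂μ =
      ∑ i ∈ Finset.range (P.natDegree + 1), P.coeff i *
        mixTree ξ ρ (overlapPow k i) (pairFam (spread δ ψ) (spread δ φ) i) := by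
    rw [integral_finsetSum _ fun i _ => (hwi i).const_mul _]
    exact Finset.sum_congr rfl fun i _ => by rw [integral_const_mul, eT]
  rw [← eS, eP, ← integral_sub (integrable_finsetSum _ fun i _ => (hwi i).const_mul _)
      (integrable_finsetSum _ fun p _ => ((hpi p).const_mul _).const_mul _)]
  refine Site.abs_integral_le fun e => ?_
  exact pair_series μ hm (Q := fun p => ξ.q p ^ k)
    (fun p p' h => pow_le_pow_left₀ (path_mem ξ p).1 (ξ.isPath.mono h) k)
    (pow_nonneg (path_mem ξ 0).1 k) (pow_le_one₀ (path_mem ξ _).1 (path_mem ξ _).2) hM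
    (hYu.comp (measurable_const.prodMk measurable_id)) (fun η => hsφ _)
    (hgu.comp (measurable_const.prodMk measurable_id)) (fun η => hsψ _) hP

/-! ### The statement -/

lemma exists_phased {ψ : ℝ → ℝ} (h : IsTrig ψ ∨ IsSinTrig ψ) :
    ∃ (D : ℕ) (c t θ : Fin D → ℝ), ψ = psum c t θ := by
  rcases h with ⟨D, c, t, h⟩ | ⟨D, c, t, h⟩
  · exact ⟨D, c, t, 0, funext fun y => by simp [psum, h]⟩
  · exact ⟨D, c, t, fun _ => -(Real.pi / 2), funext fun y => by
      simp [psum, h, Real.cos_add, Real.sin_neg]⟩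

theorem cut_limit (hcont : ContStmt) (hslope : SlopeStmt) : CutLimitStmt := by
  intro α A C f Nj xj μj ξ hS k M φ ψ hφt hφ hψt hψ
  have hM : 1 ≤ M := (hφ 0).1.trans (hφ 0).2
  obtain ⟨D₁, c₁, t₁, θ₁, rfl⟩ := exists_phased (Or.inl hφt)
  obtain ⟨D₂, c₂, t₂, θ₂, rfl⟩ := exists_phased hψt
  set t : Fin D₁ ⊕ Fin D₂ → ℝ := Sum.elim t₁ t₂
  set θ : Fin D₁ ⊕ Fin D₂ → ℝ := Sum.elim θ₁ θ₂
  set cY : Fin D₁ ⊕ Fin D₂ → ℝ := Sum.elim c₁ 0
  set cN : Fin D₁ ⊕ Fin D₂ → ℝ := Sum.elim 0 c₂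
  have hY : psum cY t θ = psum c₁ t₁ θ₁ := funext fun y => by simp [psum, cY, t, θ]
  have hN : psum cN t θ = psum c₂ t₂ θ₂ := funext fun y => by simp [psum, cN, t, θ]
  have hfam : ∀ i : ℕ, (fun l => psum (pairFam cN cY i l) t θ) =
      pairFam (psum c₂ t₂ θ₂) (psum c₁ t₁ θ₁) i := fun i => funext fun l => by
    rw [pairFam_apply (fun c => psum c t θ), hY, hN]
  have hfamS : ∀ (i : ℕ) (δ : ℝ), (fun l => spread δ (psum (pairFam cN cY i l) t θ)) =
      pairFam (spread δ (psum c₂ t₂ θ₂)) (spread δ (psum c₁ t₁ θ₁)) i := fun i δ => funext fun l => by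
    rw [pairFam_apply (fun c => spread δ (psum c t θ)), hY, hN]
  rw [Metric.tendsto_nhds]
  intro η hη
  set ε := η / (4 * (M * M))
  have hε : 0 < ε := by positivity
  obtain ⟨P, hP⟩ := exists_polynomial_near_of_continuousOn 1 M (fun u : ℝ => (u ^ 2)⁻¹)
    (ContinuousOn.inv₀ (by fun_prop) fun u hu =>
      pow_ne_zero _ (zero_lt_one.trans_le hu.1).ne') ε hε
  have hP' : ∀ u ∈ Set.Icc (1 : ℝ) M, |P.eval u - (u ^ 2)⁻¹| ≤ ε := fun u hu => (hP u hu).le
  have hsum := tendsto_finsetSum (Finset.range (P.natDegree + 1)) fun i _ =>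
    (tendsto_mixMom hcont hslope hS (continuous_overlapPow k i) (abs_overlapPow_le k i)
      (pairFam cN cY i) t θ).const_mul (P.coeff i)
  simp only [hfam, hfamS, mul_zero, Finset.sum_const_zero, mul_sub, Finset.sum_sub_distrib] at hsum
  filter_upwards [Metric.tendsto_nhds.1 hsum (η / 2) (half_pos hη)] with j hj
  rw [Real.dist_eq, sub_zero] at hj ⊢
  obtain ⟨-, -, hδ, -⟩ := slope_facts hslope hS.smooth hS.alpha.le (ξ j)
  have hc1 := cutPair_approx (N := Nj j) hS.smooth (scale (Nj j)) (xj j) (μj j) k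
    (continuous_psum c₁ t₁ θ₁) hφ (continuous_psum c₂ t₂ θ₂) hψ hP'
  have hcs : ∀ (D : ℕ) (c t θ : Fin D → ℝ), Continuous (spread (deltaOf α f (ξ j)) (psum c t θ)) :=
    fun D c t θ => (continuous_psum (pco (deltaOf α f (ξ j)) c t) t θ).congr fun y =>
      (psum_spread c t θ hδ y).symm
  have hc2 := target_approx (ξ j) (rhoOf α f (ξ j)) (deltaOf α f (ξ j)) k hM
    (hcs D₁ c₁ t₁ θ₁) hφ (continuous_psum c₁ t₁ θ₁).measurable (hcs D₂ c₂ t₂ θ₂) hψ hP'
  have he : ε * (M * M) = η / 4 := by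
    simp only [ε]
    field_simp
  rw [he, abs_le] at hc1 hc2
  rw [abs_lt] at hj ⊢
  constructor <;> linarith [hc1.1, hc1.2, hc2.1, hc2.2]

/-- Module L2a. -/
theorem cut_limit_stmt : CutLimitStmt :=
  cut_limit (Cont.contStmt tilt_factor tree_shape) slope_spec

end Vale.Agent.P157.Parisi.Full.CutLimit
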