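import Vale.Agent.P157.Parisi.Site.PowMean

/-!
Powers of pattern averages weighted by a function of the overlaps converge to tree values.
-/

noncomputable section

open MeasureTheory ProbabilityTheory Filter Topology Finset
open scoped BigOperators NNReal

namespace Vale.Agent.P157.Parisi.Full.CutLimit

open Site

variable {N L n k m : ℕ} {f : ℝ → ℝ} {A s : ℝ} {x : Fin L → ℝ} {F : (Fin n → Fin n → ℝ) → ℝ}

lemma abs_mul_le_right {a b : ℝ} (h : |a| ≤ 1) : |a * b| ≤ |b| := by
  rw [abs_mul]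
  exact mul_le_of_le_one_left (abs_nonneg _) h

/-- Replica mean of observables of chosen patterns, weighted by the overlaps. -/
def tupMeanF (f : ℝ → ℝ) (s : ℝ) (x : Fin L → ℝ) (N m : ℕ) (F : (Fin n → Fin n → ℝ) → ℝ)
    (t : Fin k → Fin m) (G : Fin k → (Fin n → ℝ) → ℝ) : ℝ :=
  ∫ q, rep n (finH f s x q)
    (fun σ : Fin n → Cube N => F (overlaps σ) * ∏ i, G i (fld (q.1 (t i)) σ)) ∂patLaw N L m

/-- Replica mean of observables of fresh patterns, weighted by the overlaps. -/
def patGF (f : ℝ → ℝ) (s : ℝ) (x : Fin L → ℝ) (N : ℕ) (μ : ℝ) (F : (Fin n → Fin n → ℝ) → ℝ)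
    (G : Fin k → (Fin n → ℝ) → ℝ) : ℝ :=
  ∫ m, tupMeanF f s x N (m + k) F (Fin.natAdd m) G ∂poissonMeasure μ.toNNReal

/-- The replica mean of a power of a pattern average, weighted by the overlaps. -/
def powMeanF (f : ℝ → ℝ) (s : ℝ) (x : Fin L → ℝ) (N : ℕ) (μ : ℝ) (k : ℕ)
    (F : (Fin n → Fin n → ℝ) → ℝ) (G : (Fin n → ℝ) → ℝ) : ℝ :=
  ∫ d, rep n (totalH f s x d) (fun σ : Fin n → Cube N =>
    F (overlaps σ) * ((∑ a ∈ Finset.range d.1, G (fld (d.2.1 a) σ)) / N) ^ k) ∂disLaw N L μ

lemma abs_tupMeanF_le {G : Fin k → (Fin n → ℝ) → ℝ} {B : ℝ} (hF : ∀ O, |F O| ≤ 1)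
    (hb : ∀ i v, |G i v| ≤ B) (t : Fin k → Fin m) : |tupMeanF f s x N m F t G| ≤ B ^ k :=
  abs_integral_le fun q => abs_rep_le _ fun σ =>
    (abs_mul_le_right (hF _)).trans (abs_prod_fld_le hb _ σ)

lemma tupMeanF_injective {G : Fin k → (Fin n → ℝ) → ℝ} (hf : Continuous f) (hG : ∀ i, Measurable (G i)) {a : ℕ}
    {t : Fin k → Fin (a + k)} (ht : Function.Injective t) :
    tupMeanF f s x N (a + k) F t G =
      tupMeanF f s x N (a + k) F (Fin.natAdd a) G := by
  classical
  have ht0 : Function.Injective (Fin.natAdd a : Fin k → Fin (a + k)) := fun i j h => by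
    simpa [Fin.ext_iff] using h
  set π : Equiv.Perm (Fin (a + k)) :=
    ((Equiv.ofInjective _ ht0).symm.trans (Equiv.ofInjective _ ht)).extendSubtype
  have hπ : ∀ i, π (Fin.natAdd a i) = t i := by
    intro i
    have h := Equiv.extendSubtype_apply_of_mem
      ((Equiv.ofInjective _ ht0).symm.trans (Equiv.ofInjective _ ht)) (Fin.natAdd a i)
      ⟨i, rfl⟩
    rw [h]
    simp [Equiv.ofInjective_symm_apply]
  have hmp : MeasurePreserving (fun (c : Fin (a + k) → Fin N → ℝ) i => c (π i))
      (Measure.pi fun _ => gam (Fin N)) (Measure.pi fun _ => gam (Fin N)) := by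
    have h := measurePreserving_piCongrLeft (fun _ : Fin (a + k) => gam (Fin N)) π.symm
    have hc : ⇑(MeasurableEquiv.piCongrLeft (fun _ : Fin (a + k) => Fin N → ℝ) π.symm) =
        fun (c : Fin (a + k) → Fin N → ℝ) i => c (π i) := by
      ext c i j
      obtain ⟨i', rfl⟩ := π.symm.surjective i
      simp [MeasurableEquiv.piCongrLeft_apply_apply]
    rwa [hc] at h
  have hmp' := hmp.prod (MeasurePreserving.id (gam (PertIdx N L)))
  symm
  unfold tupMeanF patLaw
  conv_lhs => rw [← hmp'.map_eq]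
  rw [integral_map hmp'.measurable.aemeasurable (measurable_rep (measurable_finH hf)
    fun σ => (measurable_prod_fld hG σ _).const_mul _).aestronglyMeasurable]
  refine integral_congr_ae (ae_of_all _ fun q => ?_)
  have e : finH f s x (Prod.map (fun (c : Fin (a + k) → Fin N → ℝ) i => c (π i)) id q) =
      finH f s x q := by
    funext σ
    simp only [finH, Prod.map_fst, Prod.map_snd, id_eq]
    rw [Equiv.sum_comp π fun i => f (dot (q.1 i) (unitVec σ))]
  simp only [e, Prod.map_fst, hπ]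

lemma patMean_eq_patGF (hf : Continuous f) (hF : ∀ O, |F O| ≤ 1) (μ : ℝ) {o : Fin k → Obs n} (ho : ∀ i, (o i).Good) :
    (sysState N f s x μ).patMean f F o =
      patGF f s x N μ F fun i => (o i).eval := by
  choose hc hc' C hC using ho
  have hb : ∀ (g : Fin k → Fin N → ℝ) (σ : Fin n → Cube N),
      |F (overlaps σ) * ∏ j, (o j).eval (fun l => dot (g j) (unitVec (σ l)))| ≤ ∏ j, C j * C j := fun g σ => by
    refine (abs_mul_le_right (hF _)).trans ?_
    rw [Finset.abs_prod]
    refine Finset.prod_le_prod (fun j _ => abs_nonneg _) fun j _ => ?_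
    rw [Obs.eval, abs_mul]
    exact mul_le_mul (hC j _).1 (hC j _).2 (abs_nonneg _) ((abs_nonneg _).trans (hC j 0).1)
  have h := fresh_eq (L := L) (s := s) (x := x) hf μ
    (Φ := fun g σ => F (overlaps σ) * ∏ j, (o j).eval fun l => dot (g j) (unitVec (σ l))) (fun σ => by
      refine measurable_const.mul (Finset.measurable_prod _ fun j _ => ?_)
      exact ((hc j).measurable.comp ((measurable_dot_left _).comp (measurable_pi_apply j))).mul
        ((hc' j).measurable.comp ((measurable_dot_left _).comp (measurable_pi_apply j)))) hb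
  refine Eq.trans ?_ (h.trans ?_)
  · rfl
  · simp only [patGF, tupMeanF]
    rfl

lemma powMeanF_approx (hf : Continuous f) (hF : ∀ O, |F O| ≤ 1) {μ : ℝ} (hμ : 0 ≤ μ) (k : ℕ) {G : (Fin n → ℝ) → ℝ}
    (hG : Measurable G) {B : ℝ} (hb : ∀ v, |G v| ≤ B) :
    |powMeanF f s x N μ k F G - (μ / N) ^ k * patGF f s x N μ F (fun _ : Fin k => G)| ≤
      B ^ k * (((∫ m, (m : ℝ) ^ k ∂poissonMeasure μ.toNNReal) - μ ^ k) / (N : ℝ) ^ k) := by
  have hB0 : 0 ≤ B := (abs_nonneg _).trans (hb fun _ => 0)
  set Ψ : (m : ℕ) → (Fin m → Fin N → ℝ) × (PertIdx N L → ℝ) → ℝ := fun m q =>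
    rep n (finH f s x q) (fun σ : Fin n → Cube N =>
      F (overlaps σ) * ((∑ i, G (fld (q.1 i) σ)) / N) ^ k)
  have hΨb : ∀ m q, |Ψ m q| ≤ (B / N) ^ k * (m : ℝ) ^ k := fun m q => by
    refine abs_rep_le _ fun σ => (abs_mul_le_right (hF _)).trans ?_
    rw [abs_pow, ← mul_pow, abs_div, Nat.abs_cast, div_mul_eq_mul_div]
    refine pow_le_pow_left₀ (by positivity) (div_le_div_of_nonneg_right ?_ (Nat.cast_nonneg _)) k
    exact ((Finset.abs_sum_le_sum_abs _ _).trans (Finset.sum_le_sum fun i _ => hb _)).trans_eq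
      (by simp [mul_comm])
  have hΨ : ∀ m, Measurable (Ψ m) := fun m =>
    measurable_rep (measurable_finH hf) fun σ => (((Finset.measurable_sum _ fun i _ =>
      hG.comp ((measurable_fld σ).comp ((measurable_pi_apply i).comp measurable_fst))).div_const
        _).pow_const _).const_mul _
  have e0 : powMeanF f s x N μ k F G =
      ∫ m, ∫ q, Ψ m q ∂patLaw N L m ∂poissonMeasure μ.toNNReal := by
    rw [← (integral_disLaw hΨ hΨb (integrable_of_pow_bound _ k fun m => by
      rw [abs_mul, abs_of_nonneg (a := (B / N) ^ k) (by positivity),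
        abs_of_nonneg (a := (m : ℝ) ^ k) (by positivity)])).2]
    refine integral_congr_ae (ae_of_all _ fun d => ?_)
    simp only [Ψ, totalH_eq, Finset.sum_range]
    rfl
  have e1 : ∀ m, ∫ q, Ψ m q ∂patLaw N L m =
      ((N : ℝ) ^ k)⁻¹ * ∑ t : Fin k → Fin m, tupMeanF f s x N m F t fun _ => G := by
    intro m
    have h : ∀ q, Ψ m q = ((N : ℝ) ^ k)⁻¹ * ∑ t : Fin k → Fin m,
        rep n (finH f s x q) (fun σ : Fin n → Cube N =>
          F (overlaps σ) * ∏ i, G (fld (q.1 (t i)) σ)) := by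
      intro q
      rw [← rep_sum, ← rep_const_mul]
      simp only [Ψ]
      congr 1
      funext σ
      rw [← Finset.mul_sum, div_pow, Fintype.sum_pow, div_eq_inv_mul]
      ring
    simp only [h, integral_const_mul]
    congr 1
    exact integral_finsetSum _ fun t _ => integrable_of_abs_le
      (measurable_rep (measurable_finH hf) fun σ =>
        (measurable_prod_fld (fun _ => hG) σ t).const_mul _)
      fun q => abs_rep_le _ fun σ => (abs_mul_le_right (hF _)).trans
        (abs_prod_fld_le (fun _ => hb) _ σ)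
  set c : ℕ → ℝ := fun a => tupMeanF f s x N (a + k) F (Fin.natAdd a) fun _ => G
  have hc : ∀ a, |c a| ≤ B ^ k := fun a => abs_tupMeanF_le hF (fun _ => hb) _
  have hkey : ∀ m : ℕ, |(∑ t : Fin k → Fin m, tupMeanF f s x N m F t fun _ => G) -
      (m.descFactorial k : ℝ) * c (m - k)| ≤ B ^ k * ((m : ℝ) ^ k - (m.descFactorial k : ℝ)) := by
    intro m
    refine abs_sum_sub_injective _ _ (fun t => abs_tupMeanF_le hF (fun _ => hb) t) fun t ht => ?_
    have hkm : k ≤ m := by simpa using Fintype.card_le_of_injective t ht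
    obtain ⟨a, rfl⟩ : ∃ a, m = a + k := ⟨m - k, by omega⟩
    simp only [c, Nat.add_sub_cancel]
    exact tupMeanF_injective hf (fun _ => hG) ht
  have hi1 : Integrable (fun m : ℕ => ((N : ℝ) ^ k)⁻¹ *
      ∑ t : Fin k → Fin m, tupMeanF f s x N m F t fun _ => G) (poissonMeasure μ.toNNReal) := by
    refine integrable_of_pow_bound _ (B := ((N : ℝ) ^ k)⁻¹ * B ^ k) k fun m => ?_
    rw [abs_mul, abs_of_nonneg (a := ((N : ℝ) ^ k)⁻¹) (by positivity), mul_assoc]
    refine mul_le_mul_of_nonneg_left ?_ (by positivity)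
    refine ((Finset.abs_sum_le_sum_abs _ _).trans
      (Finset.sum_le_sum fun t _ => abs_tupMeanF_le hF (fun _ => hb) t)).trans_eq ?_
    simp [mul_comm]
  have hid : Integrable (fun m : ℕ => (m.descFactorial k : ℝ)) (poissonMeasure μ.toNNReal) :=
    integrable_of_pow_bound _ (B := 1) k fun m => by
      rw [Nat.abs_cast, one_mul]; exact_mod_cast Nat.descFactorial_le_pow m k
  have hi2 : Integrable (fun m : ℕ => ((N : ℝ) ^ k)⁻¹ * ((m.descFactorial k : ℝ) * c (m - k)))
      (poissonMeasure μ.toNNReal) := by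
    refine integrable_of_pow_bound _ (B := ((N : ℝ) ^ k)⁻¹ * B ^ k) k fun m => ?_
    rw [abs_mul, abs_of_nonneg (a := ((N : ℝ) ^ k)⁻¹) (by positivity), mul_assoc, abs_mul,
      Nat.abs_cast, mul_comm (m.descFactorial k : ℝ)]
    exact mul_le_mul_of_nonneg_left (mul_le_mul (hc _)
      (by exact_mod_cast Nat.descFactorial_le_pow m k) (Nat.cast_nonneg _) (by positivity))
      (by positivity)
  have hd1 : ∫ m, (m.descFactorial k : ℝ) ∂poissonMeasure μ.toNNReal = μ ^ k := by
    have := integral_descFactorial_mul μ.toNNReal k (h := fun _ => (1 : ℝ)) (B := 1) (by simp)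
    simpa [Real.coe_toNNReal _ hμ] using this
  have e2 : (μ / N) ^ k * patGF f s x N μ F (fun _ : Fin k => G) =
      ∫ m, ((N : ℝ) ^ k)⁻¹ * ((m.descFactorial k : ℝ) * c (m - k))
        ∂poissonMeasure μ.toNNReal := by
    rw [integral_const_mul, integral_descFactorial_mul _ k hc, Real.coe_toNNReal _ hμ, div_pow]
    show μ ^ k / (N : ℝ) ^ k * ∫ m, c m ∂_ = _
    ring
  rw [e0, funext e1, e2, ← integral_sub hi1 hi2]
  refine (abs_integral_le_integral_abs).trans ((integral_mono (hi1.sub hi2).abs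
    ((((integrable_count_pow _ k).sub hid).const_mul (B ^ k)).const_mul ((N : ℝ) ^ k)⁻¹)
    fun m => ?_).trans_eq ?_)
  · simp only [Pi.sub_apply]
    rw [← mul_sub, abs_mul, abs_of_nonneg (a := ((N : ℝ) ^ k)⁻¹) (by positivity)]
    exact mul_le_mul_of_nonneg_left (hkey m) (by positivity)
  · simp only [Pi.sub_apply]
    rw [integral_const_mul, integral_const_mul, integral_sub (integrable_count_pow _ k) hid, hd1]
    ring

lemma patGF_lincomb (hf : Continuous f) (hF : ∀ O, |F O| ≤ 1) (μ : ℝ) {ι : Type*} [Fintype ι] [DecidableEq ι]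
    {c : ι → ℝ} {o : ι → Obs n} (ho : ∀ i, (o i).Good) :
    patGF f s x N μ F (fun _ : Fin k => fun v => ∑ i, c i * (o i).eval v) =
      ∑ ch : Fin k → ι, (∏ j, c (ch j)) *
        (sysState N f s x μ).patMean f F fun j => o (ch j) := by
  simp only [patMean_eq_patGF hf hF μ (fun j => ho _), patGF, tupMeanF]
  choose hc hc' C hC using ho
  have hbd : ∀ (ch : Fin k → ι) (a : ℕ) (q : (Fin (a + k) → Fin N → ℝ) × (PertIdx N L → ℝ)),
      |rep n (finH f s x q) (fun σ : Fin n → Cube N =>
        F (overlaps σ) * ∏ j, (o (ch j)).eval (fld (q.1 (Fin.natAdd a j)) σ))| ≤ ∏ j, C (ch j) * C (ch j) :=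
    fun ch a q => abs_rep_le _ fun σ => by
      refine (abs_mul_le_right (hF _)).trans ?_
      rw [Finset.abs_prod]
      refine Finset.prod_le_prod (fun j _ => abs_nonneg _) fun j _ => ?_
      rw [Obs.eval, abs_mul]
      exact mul_le_mul (hC _ _).1 (hC _ _).2 (abs_nonneg _) ((abs_nonneg _).trans (hC _ 0).1)
  have hm : ∀ (ch : Fin k → ι) (a : ℕ), Measurable fun q :
      (Fin (a + k) → Fin N → ℝ) × (PertIdx N L → ℝ) => rep n (finH f s x q)
        (fun σ : Fin n → Cube N =>
          F (overlaps σ) * ∏ j, (o (ch j)).eval (fld (q.1 (Fin.natAdd a j)) σ)) :=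
    fun ch a => measurable_rep (measurable_finH hf) fun σ =>
      Measurable.const_mul (Finset.measurable_prod _ fun j _ =>
      (((hc _).measurable.comp (measurable_dot_left _)).mul
        ((hc' _).measurable.comp (measurable_dot_left _))).comp
        ((measurable_pi_apply _).comp measurable_fst)) _
  simp only [← integral_const_mul]
  rw [← integral_finsetSum _ fun ch _ => integrable_of_abs_le Measurable.of_discrete
    fun a => abs_integral_le fun q => by
      rw [abs_mul]; exact mul_le_mul_of_nonneg_left (hbd ch a q) (abs_nonneg _)]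
  refine integral_congr_ae (ae_of_all _ fun a => ?_)
  beta_reduce
  rw [← integral_finsetSum _ fun ch _ =>
    (integrable_of_abs_le (hm ch a) (hbd ch a)).const_mul _]
  refine integral_congr_ae (ae_of_all _ fun q => ?_)
  simp only [← rep_const_mul, ← rep_sum, Fintype.prod_sum, Finset.prod_mul_distrib, Finset.mul_sum]
  congr 1
  funext σ
  exact Finset.sum_congr rfl fun ch _ => by ring

/-- Powers of pattern averages converge to the powers of their values on the tree. -/
theorem tendsto_powMeanF (hcont : ContStmt) {α A C : ℝ} {f : ℝ → ℝ} (hf : Smooth f A)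
    {Nj : ℕ → ℕ} {xj : ∀ j, Fin (Nj j) → ℝ} {μj : ℕ → ℝ} {ξ : ℕ → Path}
    (hN : Tendsto Nj atTop atTop) (hpos : ∀ j, 0 < Nj j) (hμ : ∀ j, 0 ≤ μj j)
    (hC : ∀ j, |μj j - α * Nj j| ≤ C)
    (happ : Approx Nj (fun j => sysState (Nj j) f (scale (Nj j)) (xj j) (μj j)) ξ)
    {n : ℕ} {ι : Type*} [Fintype ι] [DecidableEq ι] (c : ι → ℝ) (o : ι → Obs n)
    (ho : ∀ i, (o i).Good) {F : (Fin n → Fin n → ℝ) → ℝ} (hFc : Continuous F)
    (hF : ∀ O, |F O| ≤ 1) (k : ℕ) :
    Tendsto (fun j => powMeanF f (scale (Nj j)) (xj j) (Nj j) (μj j) k F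
        (fun v => ∑ i, c i * (o i).eval v) -
      ∑ v : Vale.Agent.P168.Shape (ξ j).r n, Vale.Agent.P168.shapeProb (ξ j).m n v *
        (F ((ξ j).gram v) * (α * ∑ i, c i * (o i).val (ξ j) f v) ^ k)) atTop (𝓝 0) := by
  have hfc := hf.continuous
  have hlim : Tendsto (fun j => μj j / (Nj j : ℝ)) atTop (𝓝 α) := by
    rw [tendsto_iff_norm_sub_tendsto_zero]
    refine squeeze_zero (fun j => norm_nonneg _) (fun j => ?_)
      ((tendsto_natCast_atTop_atTop.comp hN).const_div_atTop C)
    have : (0 : ℝ) < Nj j := by exact_mod_cast hpos j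
    rw [Real.norm_eq_abs, show μj j / (Nj j : ℝ) - α = (μj j - α * Nj j) / Nj j by field_simp,
      abs_div, abs_of_pos this]
    exact div_le_div_of_nonneg_right (hC j) this.le
  set G : (Fin n → ℝ) → ℝ := fun v => ∑ i, c i * (o i).eval v
  obtain ⟨B, hB⟩ : ∃ B, ∀ v, |G v| ≤ B := by
    have ho' := ho
    choose _ _ D hD using ho'
    refine ⟨∑ i, |c i| * (D i * D i), fun v => (Finset.abs_sum_le_sum_abs _ _).trans
      (Finset.sum_le_sum fun i _ => ?_)⟩
    rw [Obs.eval, abs_mul, abs_mul]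
    exact mul_le_mul_of_nonneg_left (mul_le_mul (hD i _).1 (hD i _).2 (abs_nonneg _)
      ((abs_nonneg _).trans (hD i 0).1)) (abs_nonneg _)
  have hGm : Measurable G := Finset.measurable_sum _ fun i _ =>
    (((ho i).1.measurable.comp (measurable_pi_apply _)).mul
      ((ho i).2.1.measurable.comp (measurable_pi_apply _))).const_mul _
  set S := fun j => sysState (Nj j) f (scale (Nj j)) (xj j) (μj j)
  set P := fun j => patGF f (scale (Nj j)) (xj j) (Nj j) (μj j) F (fun _ : Fin k => G)
  set T := fun j => ∑ v : Vale.Agent.P168.Shape (ξ j).r n, Vale.Agent.P168.shapeProb (ξ j).m n v *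
    (F ((ξ j).gram v) * (∑ i, c i * (o i).val (ξ j) f v) ^ k)
  -- the fresh patterns
  have hPT : Tendsto (fun j => P j - T j) atTop (𝓝 0) := by
    have h := tendsto_finsetSum (Finset.univ : Finset (Fin k → ι)) fun ch _ =>
      (hcont A f hf Nj S ξ hpos (fun j => sysState_isGood hfc _) happ k n F
        (fun j => o (ch j)) hFc fun j => ho _).const_mul (∏ j, c (ch j))
    simp only [mul_zero, Finset.sum_const_zero] at h
    refine h.congr fun j => ?_
    simp only [mul_sub, Finset.sum_sub_distrib]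
    congr 1
    · exact (patGF_lincomb hfc hF _ ho).symm
    · simp only [T, Path.treePat, Finset.mul_sum, Fintype.sum_pow, Finset.prod_mul_distrib]
      rw [Finset.sum_comm]
      exact Finset.sum_congr rfl fun v _ => Finset.sum_congr rfl fun ch _ => by ring
  have hPb : ∀ j, |P j| ≤ B ^ k := fun j => abs_integral_le fun m => abs_tupMeanF_le hF (fun _ => hB) _
  have h1 : Tendsto (fun j => powMeanF f (scale (Nj j)) (xj j) (Nj j) (μj j) k F G -
      (μj j / (Nj j : ℝ)) ^ k * P j) atTop (𝓝 0) := by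
    refine squeeze_zero_norm (fun j => powMeanF_approx hfc hF (hμ j) k hGm hB) ?_
    have h := (((tendsto_scaled_moment hN hμ hlim k).sub (hlim.pow k)).const_mul (B ^ k))
    rw [sub_self, mul_zero] at h
    refine h.congr fun j => ?_
    rw [div_pow, sub_div]
  have h2 : Tendsto (fun j => ((μj j / (Nj j : ℝ)) ^ k - α ^ k) * P j) atTop (𝓝 0) := by
    refine squeeze_zero_norm (fun j => ?_)
      (by simpa using (((hlim.pow k).sub_const (α ^ k)).abs.mul_const (B ^ k)))
    rw [Real.norm_eq_abs, abs_mul]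
    exact mul_le_mul_of_nonneg_left (hPb j) (abs_nonneg _)
  have h := (h1.add h2).add (hPT.const_mul (α ^ k))
  simp only [mul_zero, add_zero] at h
  refine h.congr fun j => ?_
  have e : ∑ v : Vale.Agent.P168.Shape (ξ j).r n, Vale.Agent.P168.shapeProb (ξ j).m n v *
      (F ((ξ j).gram v) * (α * ∑ i, c i * (o i).val (ξ j) f v) ^ k) = α ^ k * T j := by
    simp only [T, mul_pow]
    rw [Finset.mul_sum]
    exact Finset.sum_congr rfl fun v _ => by ring
  rw [e]
  ring

end Vale.Agent.P157.Parisi.Full.CutLimit
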